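import Vale.Agent.Lib.P184.Main

namespace Vale.Agent.P184

open Filter Topology

noncomputable section

universe u v

section Quad

variable {X : Type v} [PseudoMetricSpace X]

/-- the quadrilateral inequality -/
def Quad (X : Type v) [PseudoMetricSpace X] : Prop :=
  ∀ x y z w : X, dist x z ^ 2 + dist y w ^ 2 ≤
    dist x y ^ 2 + dist y z ^ 2 + dist z w ^ 2 + dist w x ^ 2

/-- The Bruhat-Tits (CN) inequality implies the quadrilateral inequality. -/
lemma quad_of_CN (h : ∀ p q : X, ∃ m : X, ∀ x : X,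
    dist x m ^ 2 ≤ dist x p ^ 2 / 2 + dist x q ^ 2 / 2 - dist p q ^ 2 / 4) : Quad X := by
  intro x y z w
  obtain ⟨m, hm⟩ := h x z
  have h1 := hm y
  have h2 := hm w
  have h3 : dist y w ≤ dist y m + dist w m := by
    rw [dist_comm w m]; exact dist_triangle y m w
  have h4 : dist y w ^ 2 ≤ 2 * (dist y m ^ 2 + dist w m ^ 2) := by
    have := dist_nonneg (x := y) (y := w)
    nlinarith [sq_nonneg (dist y m - dist w m)]
  rw [dist_comm z w, dist_comm x y]
  nlinarith

variable (hX : Quad X)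
include hX

lemma quad_diff (y y' p p' : X) :
    |(dist y p' ^ 2 - dist y p ^ 2) - (dist y' p' ^ 2 - dist y' p ^ 2)| ≤
      dist y y' ^ 2 + dist p p' ^ 2 := by
  rw [abs_le]
  constructor
  · -- diagonals y p and y' p'
    have h := hX y y' p p'
    have e1 : dist p' y = dist y p' := dist_comm _ _
    rw [e1] at h
    nlinarith
  · have h := hX y y' p' p
    have e1 : dist p y = dist y p := dist_comm _ _
    have e2 : dist p' p = dist p p' := dist_comm _ _
    rw [e1, e2] at h
    nlinarith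

/-- difference of horospherical increments -/
lemma incr_diff (y y' p p' : X) (D : ℝ) (hD : dist p p' ≤ D) :
    |(dist y p' - dist y p) - (dist y' p' - dist y' p)| * dist y' p ≤
      dist y y' ^ 2 + D ^ 2 + 2 * D * dist y y' := by
  have h1 := quad_diff hX y y' p p'
  set a := dist y p'
  set b := dist y p
  set a' := dist y' p'
  set b' := dist y' p
  set r := dist y y'
  have hr : 0 ≤ r := dist_nonneg
  have hD0 : 0 ≤ D := dist_nonneg.trans hD
  have ha' : 0 ≤ a' := dist_nonneg
  have hb' : 0 ≤ b' := dist_nonneg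
  have hab : |a - b| ≤ D := by
    have h2 : |dist y p' - dist y p| ≤ dist p' p := by
      rw [dist_comm y p', dist_comm y p]; exact abs_dist_sub_le p' p y
    rw [dist_comm p' p] at h2
    exact h2.trans hD
  have haa : |a - a'| ≤ r := abs_dist_sub_le y y' p'
  have hbb : |b - b'| ≤ r := abs_dist_sub_le y y' p
  have key : ((a - b) - (a' - b')) * (a' + b') =
      ((a ^ 2 - b ^ 2) - (a' ^ 2 - b' ^ 2)) - (a - b) * ((a - a') + (b - b')) := by ring
  have h2 : |((a - b) - (a' - b')) * (a' + b')| ≤ (r ^ 2 + D ^ 2) + D * (r + r) := by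
    rw [key]
    refine (abs_sub _ _).trans ?_
    have h3 : |(a - b) * ((a - a') + (b - b'))| ≤ D * (r + r) := by
      rw [abs_mul]
      refine mul_le_mul hab ((abs_add_le _ _).trans (add_le_add haa hbb)) (abs_nonneg _) hD0
    have h4 : dist p p' ^ 2 ≤ D ^ 2 := pow_le_pow_left₀ dist_nonneg hD 2
    linarith
  have h5 : |(a - b) - (a' - b')| * b' ≤ |((a - b) - (a' - b')) * (a' + b')| := by
    rw [abs_mul, abs_of_nonneg (by positivity : 0 ≤ a' + b')]
    exact mul_le_mul_of_nonneg_left (by linarith) (abs_nonneg _)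
  linarith

end Quad

section Action

variable {G : Type u} [Group G] {X : Type v} [PseudoMetricSpace X] [MulAction G X]
  [IsIsometricSMul G X]

lemma exists_ultra (s : ℕ → ℝ) (c : ℝ) (hc : 0 < c) (hs : ∀ n : ℕ, c * n ≤ s n) :
    ∃ ω : Ultrafilter ℕ, (ω : Filter ℕ) ≤ atTop ∧ ∀ᶠ n in (ω : Filter ℕ),
      s n + c / 2 ≤ s (n + 1) := by
  set A : Set ℕ := {n | s n + c / 2 ≤ s (n + 1)} with hA
  have hfreq : ∃ᶠ n in atTop, n ∈ A := by
    by_contra hcon
    rw [Filter.not_frequently] at hcon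
    obtain ⟨N, hN⟩ := Filter.eventually_atTop.mp hcon
    have h1 : ∀ k : ℕ, s (N + k) ≤ s N + (c / 2) * k := by
      intro k
      induction k with
      | zero => simp
      | succ k ih =>
        have h2 : ¬ (s (N + k) + c / 2 ≤ s (N + k + 1)) := hN (N + k) (by omega)
        rw [not_le] at h2
        push_cast
        have : N + (k + 1) = N + k + 1 := by ring
        rw [this]
        linarith
    obtain ⟨k, hk⟩ := exists_nat_gt (2 * s N / c)
    have h2 := h1 k
    have h3 := hs (N + k)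
    push_cast at h3
    rw [div_lt_iff₀ hc] at hk
    have : 0 ≤ c * N := by positivity
    nlinarith
  have hne : (atTop ⊓ 𝓟 A : Filter ℕ).NeBot := Filter.frequently_mem_iff_neBot.mp hfreq
  refine ⟨Ultrafilter.of (atTop ⊓ 𝓟 A), (Ultrafilter.of_le _).trans inf_le_left, ?_⟩
  have : A ∈ (atTop ⊓ 𝓟 A : Filter ℕ) := Filter.mem_inf_of_right (Filter.mem_principal_self A)
  exact Ultrafilter.of_le _ this

lemma exists_ulim (ω : Ultrafilter ℕ) (s : ℕ → ℝ) (D : ℝ) (hs : ∀ n, |s n| ≤ D) :
    ∃ L : ℝ, Tendsto s ω (𝓝 L) := by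
  have hc : IsCompact (Set.Icc (-D) D) := isCompact_Icc
  have h1 : (ω.map s : Filter ℝ) ≤ 𝓟 (Set.Icc (-D) D) := by
    rw [Filter.le_principal_iff]
    have : ∀ᶠ n in (ω : Filter ℕ), s n ∈ Set.Icc (-D) D :=
      Filter.Eventually.of_forall fun n => abs_le.mp (hs n)
    exact this
  obtain ⟨L, -, hL⟩ := hc.ultrafilter_le_nhds (ω.map s) h1
  exact ⟨L, hL⟩

/-- A positive translation length in a space with the quadrilateral inequality gives a
translation character. -/
theorem translationCharacter_of_quad (hX : Quad X) (g : G) (x : X) (c : ℝ) (hc : 0 < c)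
    (hx : ∀ n : ℕ, c * n ≤ dist x (g ^ n • x)) : HasTranslationCharacter g := by
  classical
  obtain ⟨ω, hω, hωc⟩ := exists_ultra (fun n => dist x (g ^ n • x)) c hc hx
  -- the defining sequences
  have hbd : ∀ (h : G) (y : X) (n : ℕ),
      |dist y (g ^ n • h⁻¹ • x) - dist y (g ^ n • x)| ≤ dist x (h • x) := by
    intro h y n
    have h1 : |dist (g ^ n • h⁻¹ • x) y - dist (g ^ n • x) y| ≤
      dist (g ^ n • h⁻¹ • x) (g ^ n • x) := abs_dist_sub_le _ _ _
    rw [dist_smul, dist_comm (g ^ n • h⁻¹ • x) y, dist_comm (g ^ n • x) y] at h1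
    have h2 : dist (h⁻¹ • x) x = dist x (h • x) := by
      rw [← dist_smul h (h⁻¹ • x) x, smul_inv_smul]
    rwa [h2] at h1
  choose ψ hψ using fun h : G => exists_ulim ω
    (fun n => dist x (g ^ n • h⁻¹ • x) - dist x (g ^ n • x)) _ (hbd h x)
  -- independence of the base point
  have hbase : ∀ (h : G) (y : X),
      Tendsto (fun n : ℕ => dist y (g ^ n • h⁻¹ • x) - dist y (g ^ n • x)) ω (𝓝 (ψ h)) := by
    intro h y
    have hdiff : Tendsto (fun n : ℕ => (dist y (g ^ n • h⁻¹ • x) - dist y (g ^ n • x)) -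
        (dist x (g ^ n • h⁻¹ • x) - dist x (g ^ n • x))) ω (𝓝 0) := by
      set D := dist x (h • x)
      set B := dist y x ^ 2 + D ^ 2 + 2 * D * dist y x with hB
      have hDn : ∀ n : ℕ, dist (g ^ n • x) (g ^ n • h⁻¹ • x) ≤ D := by
        intro n
        rw [dist_smul, ← dist_smul h x (h⁻¹ • x), smul_inv_smul, dist_comm]
      have hlim : Tendsto (fun n : ℕ => B / c * (1 / (n : ℝ))) ω (𝓝 0) := by
        have h1 : Tendsto (fun n : ℕ => 1 / (n : ℝ)) atTop (𝓝 0) :=
          tendsto_one_div_atTop_nhds_zero_nat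
        have := (h1.mono_left hω).const_mul (B / c)
        simpa using this
      refine squeeze_zero_norm' ?_ hlim
      have hpos : ∀ᶠ n : ℕ in (ω : Filter ℕ), 0 < n := hω (eventually_gt_atTop 0)
      filter_upwards [hpos] with n hn
      have h1 := incr_diff hX y x (g ^ n • x) (g ^ n • h⁻¹ • x) D (hDn n)
      have h2 := hx n
      have hn' : (0 : ℝ) < n := by exact_mod_cast hn
      rw [Real.norm_eq_abs]
      have h3 : |(dist y (g ^ n • h⁻¹ • x) - dist y (g ^ n • x)) -
        (dist x (g ^ n • h⁻¹ • x) - dist x (g ^ n • x))| * (c * n) ≤ B :=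
        (mul_le_mul_of_nonneg_left h2 (abs_nonneg _)).trans h1
      have h4 : B / c * (1 / (n : ℝ)) = B / (c * n) := by field_simp
      rw [h4, le_div_iff₀ (by positivity)]
      exact h3
    have := hdiff.add (hψ h)
    simpa using this
  have hmul : ∀ h k : G, Commute g h → Commute g k → ψ (h * k) = ψ h + ψ k := by
    intro h k hh hk
    have h1 := (hbase h (k • x)).add (hψ k)
    have h2 := hψ (h * k)
    refine tendsto_nhds_unique h2 (h1.congr fun n => ?_)
    have hkn : k * g ^ n = g ^ n * k := ((hk.pow_left n).symm).eq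
    have hkn' : k⁻¹ * g ^ n = g ^ n * k⁻¹ := ((hk.pow_left n).symm.inv_left).eq
    have e1 : dist (k • x) (g ^ n • x) = dist x (g ^ n • k⁻¹ • x) := by
      rw [← dist_smul k⁻¹ (k • x) (g ^ n • x), inv_smul_smul, ← mul_smul, ← mul_smul, hkn']
    have e2 : dist x (g ^ n • (h * k)⁻¹ • x) = dist (k • x) (g ^ n • h⁻¹ • x) := by
      rw [← dist_smul k x (g ^ n • (h * k)⁻¹ • x), ← mul_smul (g ^ n), ← mul_smul k,
        ← mul_smul (g ^ n)]
      have : k * (g ^ n * (h * k)⁻¹) = g ^ n * h⁻¹ := by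
        rw [← mul_assoc, hkn]; group
      rw [this]
    rw [e1, e2]
    ring
  refine ⟨fun h => dist x (h • x), ψ, ?_, ?_, hmul, ?_, ?_⟩
  · intro h k
    have h1 := dist_triangle x (h • x) ((h * k) • x)
    rw [mul_smul, dist_smul h x (k • x)] at h1
    change dist x ((h * k) • x) ≤ dist x (h • x) + dist x (k • x)
    rwa [mul_smul]
  · intro h
    change dist x (h⁻¹ • x) = dist x (h • x)
    rw [← dist_smul h x (h⁻¹ • x), smul_inv_smul, dist_comm]
  · intro h _
    have h1 : Tendsto (fun n : ℕ => |dist x (g ^ n • h⁻¹ • x) - dist x (g ^ n • x)|) ω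
      (𝓝 |ψ h|) := (hψ h).abs
    exact le_of_tendsto h1 (Eventually.of_forall (hbd h x))
  · -- nonvanishing
    intro h0
    have h2 : Tendsto (fun n : ℕ => dist x (g ^ n • (g⁻¹)⁻¹ • x) - dist x (g ^ n • x)) ω
      (𝓝 (ψ g⁻¹)) := hψ g⁻¹
    have hadd : ψ (g * g⁻¹) = ψ g + ψ g⁻¹ :=
      hmul g g⁻¹ (Commute.refl g) (Commute.refl g).inv_right
    have hone : ψ (g * g⁻¹) = 0 := by
      rw [mul_inv_cancel]
      have h5 := hψ 1
      simp only [inv_one, one_smul, sub_self] at h5
      exact tendsto_nhds_unique h5 tendsto_const_nhds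
    have h6 : c / 2 ≤ ψ g⁻¹ := by
      refine ge_of_tendsto h2 ?_
      filter_upwards [hωc] with n hn
      have e : g ^ n • (g⁻¹)⁻¹ • x = g ^ (n + 1) • x := by
        rw [inv_inv, ← mul_smul, ← pow_succ]
      rw [e]
      linarith
    have : ψ g = - ψ g⁻¹ := by linarith
    rw [this] at h0
    linarith

end Action

end

end Vale.Agent.P184
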