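import Mathlib

namespace Vale.Agent.P184

universe u v

/-- The convolution product `(a * b)(g) = ∑_h a(h) b(h⁻¹ g)` of two functions on `G`
(an absolutely convergent series when `a` and `b` are in `ℓ¹(G)`). -/
noncomputable def conv {G : Type u} [Group G] (a b : G → ℂ) (g : G) : ℂ :=
  ∑' h : G, a h * b (h⁻¹ * g)

/-- `e` is an idempotent `q × q` matrix with entries in the convolution algebra `ℓ¹(G)`. -/
def IsL1Idempotent {G : Type u} [Group G] (q : ℕ) (e : Fin q → Fin q → G → ℂ) : Prop :=
  (∀ i j, Summable fun g : G => ‖e i j g‖) ∧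
    ∀ i j g, ∑ k, conv (e i k) (e k j) g = e i j g

/-- The coefficient at the conjugacy class `c` of the Hattori-Stallings trace of `e`. -/
noncomputable def hsCoeff {G : Type u} [Group G] (q : ℕ) (e : Fin q → Fin q → G → ℂ)
    (c : ConjClasses G) : ℂ :=
  ∑' g : c.carrier, ∑ i, e i i g

/-- The `ℓ¹`-Bass property of `G`: the Hattori-Stallings trace of every idempotent matrix over
`ℓ¹(G)` is supported on finitely many conjugacy classes, all consisting of elements of finite
order. -/
def L1Bass (G : Type u) [Group G] : Prop :=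
  ∀ (q : ℕ) (e : Fin q → Fin q → G → ℂ), IsL1Idempotent q e →
    ∃ F : Finset (ConjClasses G), (∀ c ∈ F, ∀ g ∈ c.carrier, IsOfFinOrder g) ∧
      ∀ c, c ∉ F → hsCoeff q e c = 0

/-- The Hattori-Stallings coefficients at the class of `g` vanish for all idempotent matrices
over `ℓ¹(G)`. -/
def VanishesAt {G : Type u} [Group G] (g : G) : Prop :=
  ∀ (q : ℕ) (e : Fin q → Fin q → G → ℂ), IsL1Idempotent q e →
    hsCoeff q e (ConjClasses.mk g) = 0

/-- There are a length function `ℓ` on `G` and a real function `ψ` which is a homomorphism on the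
centralizer of `g`, is bounded there by `ℓ`, and does not vanish at `g`. -/
def HasTranslationCharacter {G : Type u} [Group G] (g : G) : Prop :=
  ∃ ℓ ψ : G → ℝ, (∀ x y, ℓ (x * y) ≤ ℓ x + ℓ y) ∧ (∀ x, ℓ x⁻¹ = ℓ x) ∧
    (∀ x y, Commute g x → Commute g y → ψ (x * y) = ψ x + ψ y) ∧
    (∀ x, Commute g x → |ψ x| ≤ ℓ x) ∧ ψ g ≠ 0

/-- The Bruhat-Tits (CN) inequality: every pair of points has a midpoint satisfying the CAT(0)
comparison inequality. Every CAT(0) space has this property, and a complete metric space has it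
if and only if it is CAT(0). -/
def IsCAT0 (X : Type v) [MetricSpace X] : Prop :=
  ∀ p q : X, ∃ m : X, ∀ x : X,
    dist x m ^ 2 ≤ dist x p ^ 2 / 2 + dist x q ^ 2 / 2 - dist p q ^ 2 / 4

/-- In the isometric action of `G` on `X` the element `g` has positive (stable) translation
length: `d(x, gⁿ x) ≥ c n` for some point `x`, some `c > 0` and all `n`. -/
def PositiveTranslationLength {G : Type u} [Group G] (X : Type v) [MetricSpace X] [MulAction G X]
    (g : G) : Prop :=
  ∃ (x : X) (c : ℝ), 0 < c ∧ ∀ n : ℕ, c * n ≤ dist x (g ^ n • x)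

end Vale.Agent.P184
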