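import Mathlib

namespace Vale.Agent.P184

open UniformSpace Filter Topology

noncomputable section

universe u

variable {B : Type u} [NormedRing B]

/-- a weight: a seminorm satisfying the Leibniz type inequality -/
structure Wt (B : Type u) [NormedRing B] where
  /-- the function -/
  w : B → ℝ
  nonneg : ∀ x, 0 ≤ w x
  add_le : ∀ x y, w (x + y) ≤ w x + w y
  neg_eq : ∀ x, w (-x) = w x
  mul_le : ∀ x y, w (x * y) ≤ w x * ‖y‖ + ‖x‖ * w y

lemma Wt.sub_le (W : Wt B) (x y : B) : W.w (x - y) ≤ W.w x + W.w y := by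
  rw [sub_eq_add_neg, ← W.neg_eq y]
  exact W.add_le _ _

/-- the defect of idempotency -/
def dfc (x : B) : B := x * x - x

/-- Newton step towards an idempotent -/
def nwt (x : B) : B := x + (dfc x - (x * dfc x + x * dfc x))

lemma nwt_eq (x : B) : nwt x = (x * x + x * x + x * x) - (x * x * x + x * x * x) := by
  unfold nwt dfc; noncomm_ring

lemma dfc_nwt (x : B) : dfc (nwt x) =
    (dfc x * dfc x * dfc x + dfc x * dfc x * dfc x + dfc x * dfc x * dfc x + dfc x * dfc x * dfc x)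
      - (dfc x * dfc x + dfc x * dfc x + dfc x * dfc x) := by
  unfold nwt dfc; noncomm_ring

lemma norm_dfc_nwt {x : B} (h : ‖dfc x‖ ≤ 1 / 4) : ‖dfc (nwt x)‖ ≤ 4 * ‖dfc x‖ ^ 2 := by
  rw [dfc_nwt]
  set r := dfc x
  have h2 : ‖r * r‖ ≤ ‖r‖ ^ 2 := by rw [pow_two]; exact norm_mul_le _ _
  have h3 : ‖r * r * r‖ ≤ ‖r‖ ^ 3 := by
    calc ‖r * r * r‖ ≤ ‖r * r‖ * ‖r‖ := norm_mul_le _ _
      _ ≤ ‖r‖ ^ 2 * ‖r‖ := by gcongr
      _ = ‖r‖ ^ 3 := by ring
  have h4 : ‖r‖ ^ 3 ≤ ‖r‖ ^ 2 * (1 / 4) := by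
    calc ‖r‖ ^ 3 = ‖r‖ ^ 2 * ‖r‖ := by ring
      _ ≤ ‖r‖ ^ 2 * (1 / 4) := by gcongr
  have h5 : ‖r * r * r + r * r * r + r * r * r + r * r * r‖ ≤ 4 * ‖r‖ ^ 3 := by
    refine (norm_add_le _ _).trans ?_
    have := norm_add_le (r * r * r + r * r * r) (r * r * r)
    have := norm_add_le (r * r * r) (r * r * r)
    linarith
  have h6 : ‖r * r + r * r + r * r‖ ≤ 3 * ‖r‖ ^ 2 := by
    refine (norm_add_le _ _).trans ?_
    have := norm_add_le (r * r) (r * r)
    linarith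
  refine (norm_sub_le _ _).trans ?_
  linarith

lemma norm_nwt_sub (x : B) : ‖nwt x - x‖ ≤ (1 + 2 * ‖x‖) * ‖dfc x‖ := by
  have : nwt x - x = dfc x - (x * dfc x + x * dfc x) := by unfold nwt; abel
  rw [this]
  have h1 := norm_mul_le x (dfc x)
  have h2 := norm_add_le (x * dfc x) (x * dfc x)
  have h3 := norm_sub_le (dfc x) (x * dfc x + x * dfc x)
  linarith

lemma Wt.nwt_le (W : Wt B) {x : B} {M : ℝ} (hM : ‖x‖ ≤ M) :
    W.w (nwt x) ≤ (6 * M + 6 * M ^ 2) * W.w x := by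
  rw [nwt_eq]
  have hM0 : 0 ≤ M := (norm_nonneg _).trans hM
  have hw := W.nonneg x
  have h2 : W.w (x * x) ≤ 2 * M * W.w x := by
    refine (W.mul_le x x).trans ?_
    nlinarith [norm_nonneg x]
  have h2' : ‖x * x‖ ≤ M ^ 2 := by
    refine (norm_mul_le x x).trans ?_
    nlinarith [norm_nonneg x]
  have h3 : W.w (x * x * x) ≤ 3 * M ^ 2 * W.w x := by
    refine (W.mul_le (x * x) x).trans ?_
    have a1 : W.w (x * x) * ‖x‖ ≤ (2 * M * W.w x) * M :=
      mul_le_mul h2 hM (norm_nonneg _) (by positivity)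
    have a2 : ‖x * x‖ * W.w x ≤ M ^ 2 * W.w x := mul_le_mul_of_nonneg_right h2' hw
    nlinarith
  have b1 := W.sub_le (x * x + x * x + x * x) (x * x * x + x * x * x)
  have b2 := W.add_le (x * x + x * x) (x * x)
  have b3 := W.add_le (x * x) (x * x)
  have b4 := W.add_le (x * x * x) (x * x * x)
  nlinarith

/-- the Newton sequence -/
def seq (x : B) : ℕ → B
  | 0 => x
  | n + 1 => nwt (seq x n)

lemma seq_bounds {x : B} {M s : ℝ} (hM : 1 ≤ M) (hx : ‖x‖ ≤ M - 1) (hs0 : 0 ≤ s)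
    (hs : s ≤ 1 / 2) (hsM : (1 + 2 * M) * s ≤ 2) (hr : ‖dfc x‖ ≤ s / 4) (n : ℕ) :
    ‖seq x n‖ ≤ M - (1 / 2) ^ n ∧ ‖dfc (seq x n)‖ ≤ s ^ (n + 1) / 4 := by
  induction n with
  | zero => simp [seq]; exact ⟨hx, hr⟩
  | succ n ih =>
    obtain ⟨h1, h2⟩ := ih
    have hsn : s ^ n ≤ (1 / 2) ^ n := pow_le_pow_left₀ hs0 hs n
    have hsn0 : 0 ≤ s ^ n := by positivity
    have hs1 : s ^ (n + 1) ≤ 1 := pow_le_one₀ hs0 (by linarith)
    have hMn : ‖seq x n‖ ≤ M := by
      have : (0:ℝ) ≤ (1 / 2) ^ n := by positivity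
      linarith
    constructor
    · have h3 := norm_nwt_sub (seq x n)
      have h4 : ‖nwt (seq x n)‖ ≤ ‖seq x n‖ + ‖nwt (seq x n) - seq x n‖ := by
        have := norm_add_le (seq x n) (nwt (seq x n) - seq x n)
        simpa using this
      have h5 : (1 + 2 * ‖seq x n‖) * ‖dfc (seq x n)‖ ≤ (1 + 2 * M) * (s ^ (n + 1) / 4) := by
        apply mul_le_mul _ h2 (norm_nonneg _) (by linarith)
        linarith
      have h6 : (1 + 2 * M) * (s ^ (n + 1) / 4) ≤ (1 / 2) ^ (n + 1) := by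
        calc (1 + 2 * M) * (s ^ (n + 1) / 4) = ((1 + 2 * M) * s) * s ^ n / 4 := by ring
          _ ≤ 2 * (1 / 2) ^ n / 4 := by gcongr
          _ = (1 / 2) ^ (n + 1) := by ring
      have h7 : (1 / 2 : ℝ) ^ n = (1 / 2) ^ (n + 1) + (1 / 2) ^ (n + 1) := by ring
      change ‖nwt (seq x n)‖ ≤ _
      linarith
    · change ‖dfc (nwt (seq x n))‖ ≤ _
      have h3 : ‖dfc (seq x n)‖ ≤ 1 / 4 := by linarith
      refine (norm_dfc_nwt h3).trans ?_
      have h4 : ‖dfc (seq x n)‖ ^ 2 ≤ (s ^ (n + 1) / 4) ^ 2 :=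
        pow_le_pow_left₀ (norm_nonneg _) h2 2
      have h5 : (s ^ (n + 1)) ^ 2 ≤ s ^ (n + 1 + 1) := by
        rw [← pow_mul]
        exact pow_le_pow_of_le_one hs0 (by linarith) (by omega)
      calc 4 * ‖dfc (seq x n)‖ ^ 2 ≤ 4 * (s ^ (n + 1) / 4) ^ 2 := by gcongr
        _ = (s ^ (n + 1)) ^ 2 / 4 := by ring
        _ ≤ s ^ (n + 1 + 1) / 4 := by gcongr

lemma Wt.seq_le (W : Wt B) {x : B} {M : ℝ} (hM : ∀ n, ‖seq x n‖ ≤ M) (n : ℕ) :
    W.w (seq x n) ≤ (6 * M + 6 * M ^ 2) ^ n * W.w x := by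
  have hM0 : 0 ≤ M := (norm_nonneg _).trans (hM 0)
  induction n with
  | zero => simp [seq]
  | succ n ih =>
    change W.w (nwt (seq x n)) ≤ _
    refine (W.nwt_le (hM n)).trans ?_
    calc (6 * M + 6 * M ^ 2) * W.w (seq x n)
        ≤ (6 * M + 6 * M ^ 2) * ((6 * M + 6 * M ^ 2) ^ n * W.w x) := by gcongr
      _ = (6 * M + 6 * M ^ 2) ^ (n + 1) * W.w x := by ring

/-- The Newton sequence converges to an idempotent in the completion, and its defect decays
faster than any weight grows. -/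
theorem newton {x : B} {M s : ℝ} (hM : 1 ≤ M) (hx : ‖x‖ ≤ M - 1) (hs0 : 0 ≤ s)
    (hs : s ≤ 1 / 2) (hsM : (1 + 2 * M) * s ≤ 2) (hsK : (6 * M + 6 * M ^ 2) * s < 1)
    (hr : ‖dfc x‖ ≤ s / 4) :
    ∃ f : Completion B, f * f = f ∧ ‖(x : Completion B) - f‖ ≤ (1 + 2 * M) * s / 2 ∧
      Tendsto (fun n => ((seq x n : B) : Completion B)) atTop (𝓝 f) ∧ (∀ n, ‖seq x n‖ ≤ M) ∧
      Tendsto (fun n => ‖dfc (seq x n)‖) atTop (𝓝 0) ∧
      ∀ W : Wt B, Tendsto (fun n => ‖dfc (seq x n)‖ * W.w (seq x n)) atTop (𝓝 0) := by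
  have hb := seq_bounds hM hx hs0 hs hsM hr
  have hMn : ∀ n, ‖seq x n‖ ≤ M := fun n => by
    have : (0:ℝ) ≤ (1 / 2) ^ n := by positivity
    linarith [(hb n).1]
  have hd : ∀ n, dist ((seq x n : B) : Completion B) ((seq x (n + 1) : B) : Completion B) ≤
      ((1 + 2 * M) * s / 2) / 2 / 2 ^ n := by
    intro n
    rw [Completion.dist_eq, dist_comm, dist_eq_norm]
    change ‖nwt (seq x n) - seq x n‖ ≤ _
    refine (norm_nwt_sub _).trans ?_
    have hsn : s ^ n ≤ (1 / 2) ^ n := pow_le_pow_left₀ hs0 hs n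
    have hM0 : 0 ≤ 1 + 2 * M := by linarith
    calc (1 + 2 * ‖seq x n‖) * ‖dfc (seq x n)‖
        ≤ (1 + 2 * M) * (s ^ (n + 1) / 4) :=
          mul_le_mul (by linarith [hMn n]) (hb n).2 (norm_nonneg _) hM0
      _ = (1 + 2 * M) * s / 4 * s ^ n := by ring
      _ ≤ (1 + 2 * M) * s / 4 * (1 / 2) ^ n := by gcongr
      _ = _ := by rw [one_div, inv_pow]; ring
  have hc : CauchySeq (fun n => ((seq x n : B) : Completion B)) := cauchySeq_of_le_geometric_two hd
  obtain ⟨f, hf⟩ := cauchySeq_tendsto_of_complete hc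
  have hdn : Tendsto (fun n => ‖dfc (seq x n)‖) atTop (𝓝 0) := by
    have h1 : Tendsto (fun n : ℕ => s ^ (n + 1) / 4) atTop (𝓝 0) := by
      have := (tendsto_pow_atTop_nhds_zero_of_lt_one hs0 (by linarith : s < 1)).comp
        (tendsto_add_atTop_nat 1)
      simpa using this.div_const 4
    exact squeeze_zero (fun n => norm_nonneg _) (fun n => (hb n).2) h1
  refine ⟨f, ?_, ?_, hf, hMn, hdn, ?_⟩
  · have h1 : Tendsto (fun n => ((seq x n : B) : Completion B) * ((seq x n : B) : Completion B) -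
        ((seq x n : B) : Completion B)) atTop (𝓝 (f * f - f)) := (hf.mul hf).sub hf
    have h2 : Tendsto (fun n => ((seq x n : B) : Completion B) * ((seq x n : B) : Completion B) -
        ((seq x n : B) : Completion B)) atTop (𝓝 0) := by
      rw [tendsto_zero_iff_norm_tendsto_zero]
      refine hdn.congr fun n => ?_
      rw [← Completion.coe_mul, ← Completion.coe_sub, Completion.norm_coe]
      rfl
    exact sub_eq_zero.mp (tendsto_nhds_unique h1 h2)
  · have := dist_le_of_le_geometric_two_of_tendsto₀ hd hf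
    rwa [dist_eq_norm] at this
  · intro W
    have hM0 : 0 ≤ M := by linarith
    have hW0 := W.nonneg x
    have h1 : Tendsto (fun n : ℕ => (s / 4 * W.w x) * ((6 * M + 6 * M ^ 2) * s) ^ n) atTop (𝓝 0) := by
      have := tendsto_pow_atTop_nhds_zero_of_lt_one (by positivity) hsK
      simpa using this.const_mul (s / 4 * W.w x)
    refine squeeze_zero (fun n => mul_nonneg (norm_nonneg _) (W.nonneg _)) (fun n => ?_) h1
    calc ‖dfc (seq x n)‖ * W.w (seq x n)
        ≤ (s ^ (n + 1) / 4) * ((6 * M + 6 * M ^ 2) ^ n * W.w x) :=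
          mul_le_mul (hb n).2 (W.seq_le hMn n) (W.nonneg _) (by positivity)
      _ = (s / 4 * W.w x) * ((6 * M + 6 * M ^ 2) * s) ^ n := by rw [mul_pow]; ring

/-- Two close idempotents in a complete normed ring are similar. -/
theorem similar {A : Type u} [NormedRing A] [CompleteSpace A] {e f : A} (he : e * e = e)
    (hf : f * f = f) (h : (1 + 2 * ‖e‖) * ‖e - f‖ < 1) :
    ∃ u : Aˣ, f * u = u * e := by
  have key : ‖((e - f) * e + (e - f) * e) - (e - f)‖ < 1 := by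
    have h1 := norm_mul_le (e - f) e
    have h2 := norm_add_le ((e - f) * e) ((e - f) * e)
    have h3 := norm_sub_le ((e - f) * e + (e - f) * e) (e - f)
    nlinarith
  refine ⟨Units.oneSub _ key, ?_⟩
  rw [Units.val_oneSub]
  have h1 : f * (1 - ((e - f) * e + (e - f) * e - (e - f))) =
      f + (f * f) * e + (f * f) * e - (f * e) * e - (f * e) * e + f * e - f * f := by
    noncomm_ring
  have h2 : (1 - ((e - f) * e + (e - f) * e - (e - f))) * e =
      e + (f * (e * e)) + (f * (e * e)) - (e * e) * e - (e * e) * e + e * e - f * e := by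
    noncomm_ring
  rw [h1, h2, hf, he, mul_assoc f e e, he]
  abel

end

end Vale.Agent.P184
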