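import Vale.Agent.Lib.P184.Emb
import Vale.Agent.Lib.P184.Newton
import Vale.Agent.Lib.P184.Defs

namespace Vale.Agent.P184

open UniformSpace Filter Topology

noncomputable section

universe u v

section Char

variable {G : Type v} [Group G]

/-- data of a translation character -/
structure TC (g : G) where
  /-- length -/
  ℓ : G → ℝ
  /-- character -/
  ψ : G → ℝ
  ℓ_mul : ∀ x y, ℓ (x * y) ≤ ℓ x + ℓ y
  ℓ_inv : ∀ x, ℓ x⁻¹ = ℓ x
  ψ_mul : ∀ x y, Commute g x → Commute g y → ψ (x * y) = ψ x + ψ y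
  ψ_le : ∀ x, Commute g x → |ψ x| ≤ ℓ x
  ψ_ne : ψ g ≠ 0

variable {g : G}

lemma TC.ℓ_nonneg (C : TC g) (x : G) : 0 ≤ C.ℓ x := by
  have h1 := C.ℓ_mul x x⁻¹
  have h2 := C.ℓ_mul 1 1
  rw [mul_inv_cancel, C.ℓ_inv] at h1
  rw [mul_one] at h2
  linarith

lemma TC.ψ_one (C : TC g) : C.ψ 1 = 0 := by
  have := C.ψ_mul 1 1 (Commute.one_right g) (Commute.one_right g)
  rw [mul_one] at this
  linarith

lemma TC.lower (C : TC g) (c h : G) (hh : Commute g h) : -C.ℓ c ≤ C.ψ h + C.ℓ (c * h⁻¹) := by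
  have h1 := C.ψ_le h hh
  have h2 : C.ℓ h⁻¹ ≤ C.ℓ c⁻¹ + C.ℓ (c * h⁻¹) := by
    have := C.ℓ_mul c⁻¹ (c * h⁻¹)
    simpa using this
  rw [C.ℓ_inv, C.ℓ_inv] at h2
  have h3 := abs_le.mp h1
  linarith [h3.1]

/-- equivariant McShane extension of the character -/
def TC.Φ (C : TC g) (c : G) : ℝ := ⨅ h : {h : G // Commute g h}, C.ψ h + C.ℓ (c * (h : G)⁻¹)

lemma TC.bdd (C : TC g) (c : G) :
    BddBelow (Set.range fun h : {h : G // Commute g h} => C.ψ h + C.ℓ (c * (h : G)⁻¹)) :=
  ⟨-C.ℓ c, by rintro _ ⟨h, rfl⟩; exact C.lower c h h.2⟩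

instance : Nonempty {h : G // Commute g h} := ⟨⟨1, Commute.one_right g⟩⟩

lemma TC.Φ_le (C : TC g) (c h : G) (hh : Commute g h) : C.Φ c ≤ C.ψ h + C.ℓ (c * h⁻¹) :=
  ciInf_le (C.bdd c) ⟨h, hh⟩

lemma TC.le_Φ (C : TC g) (c : G) (b : ℝ) (hb : ∀ h, Commute g h → b ≤ C.ψ h + C.ℓ (c * h⁻¹)) :
    b ≤ C.Φ c :=
  le_ciInf fun h => hb h h.2

lemma TC.Φ_mul_le (C : TC g) (c k : G) (hk : Commute g k) : C.Φ c + C.ψ k ≤ C.Φ (c * k) := by
  refine C.le_Φ _ _ fun h hh => ?_
  have h1 : Commute g (h * k⁻¹) := hh.mul_right hk.inv_right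
  have h2 := C.Φ_le c (h * k⁻¹) h1
  have h3 : C.ψ h = C.ψ (h * k⁻¹) + C.ψ k := by
    rw [← C.ψ_mul _ _ h1 hk]; simp
  have h4 : c * (h * k⁻¹)⁻¹ = c * k * h⁻¹ := by group
  rw [h4] at h2
  linarith

lemma TC.ψ_inv (C : TC g) (k : G) (hk : Commute g k) : C.ψ k⁻¹ = - C.ψ k := by
  have := C.ψ_mul k k⁻¹ hk hk.inv_right
  rw [mul_inv_cancel, C.ψ_one] at this
  linarith

lemma TC.Φ_mul (C : TC g) (c k : G) (hk : Commute g k) : C.Φ (c * k) = C.Φ c + C.ψ k := by
  refine le_antisymm ?_ (C.Φ_mul_le c k hk)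
  have h1 := C.Φ_mul_le (c * k) k⁻¹ hk.inv_right
  rw [mul_inv_cancel_right, C.ψ_inv k hk] at h1
  linarith

lemma TC.Φ_lip_aux (C : TC g) (y c : G) : C.Φ (y * c) ≤ C.Φ c + C.ℓ y := by
  have : C.Φ (y * c) - C.ℓ y ≤ C.Φ c := by
    refine C.le_Φ _ _ fun h hh => ?_
    have h1 := C.Φ_le (y * c) h hh
    have h2 := C.ℓ_mul y (c * h⁻¹)
    rw [← mul_assoc] at h2
    linarith
  linarith

lemma TC.Φ_lip (C : TC g) (y c : G) : |C.Φ (y * c) - C.Φ c| ≤ C.ℓ y := by
  rw [abs_le]
  constructor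
  · have := C.Φ_lip_aux y⁻¹ (y * c)
    rw [inv_mul_cancel_left, C.ℓ_inv] at this
    linarith
  · linarith [C.Φ_lip_aux y c]

open Classical in
/-- a chosen element conjugating `g` to `z` -/
def rep (g z : G) : G := if h : ∃ c, c * g * c⁻¹ = z then h.choose else 1

lemma rep_spec {g z : G} (h : ∃ c, c * g * c⁻¹ = z) : rep g z * g * (rep g z)⁻¹ = z := by
  unfold rep
  rw [dif_pos h]
  exact h.choose_spec

/-- the transport cocycle -/
def TC.Θ (C : TC g) (z y : G) : ℝ := C.Φ (y * rep g z) - C.Φ (rep g z)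

lemma TC.Θ_eq (C : TC g) {z c : G} (y : G) (h : c * g * c⁻¹ = z) :
    C.Θ z y = C.Φ (y * c) - C.Φ c := by
  have h1 := rep_spec ⟨c, h⟩
  set r := rep g z with hr
  have h2 : Commute g (c⁻¹ * r) := by
    have h3 : r * g * r⁻¹ = c * g * c⁻¹ := by rw [h1, h]
    have h4 : g = c⁻¹ * (r * g * r⁻¹) * c := by rw [h3]; group
    change g * (c⁻¹ * r) = c⁻¹ * r * g
    conv_lhs => rw [h4]
    group
  have h5 : r = c * (c⁻¹ * r) := by group
  unfold TC.Θ
  rw [← hr, h5, ← mul_assoc, C.Φ_mul _ _ h2, C.Φ_mul _ _ h2]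
  ring

lemma TC.Θ_bound (C : TC g) (z y : G) : |C.Θ z y| ≤ C.ℓ y := C.Φ_lip _ _

open Classical in
/-- the bilinear kernel -/
def TC.et (C : TC g) (x y : G) : ℝ := if IsConj g (x * y) then C.Θ (x * y) y else 0

lemma TC.et_bound (C : TC g) (x y : G) : |C.et x y| ≤ C.ℓ y := by
  unfold TC.et
  split_ifs
  · exact C.Θ_bound _ _
  · simpa using C.ℓ_nonneg y

lemma isConj_rot (g x y : G) : IsConj g (x * y) ↔ IsConj g (y * x) := by
  have h : IsConj (x * y) (y * x) := isConj_iff.mpr ⟨y, by group⟩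
  exact ⟨fun h1 => h1.trans h, fun h1 => h1.trans h.symm⟩

open Classical in
lemma TC.et_symm (C : TC g) (x y : G) :
    C.et x y + C.et y x = if IsConj g (x * y) then C.ψ g else 0 := by
  unfold TC.et
  rw [← isConj_rot g x y]
  split_ifs with h
  · obtain ⟨c, hc⟩ := isConj_iff.mp h
    have h1 : (y * c) * g * (y * c)⁻¹ = y * x := by
      have : (y * c) * g * (y * c)⁻¹ = y * (c * g * c⁻¹) * y⁻¹ := by group
      rw [this, hc]; group
    rw [C.Θ_eq y hc, C.Θ_eq x h1]
    have h2 : x * (y * c) = c * g := by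
      have : c * g = (c * g * c⁻¹) * c := by group
      rw [this, hc]; group
    rw [h2, C.Φ_mul c g (Commute.refl g)]
    ring
  · simp

lemma TC.et_hoch (C : TC g) (x y w : G) :
    C.et (x * y) w - C.et x (y * w) + C.et (w * x) y = 0 := by
  unfold TC.et
  have e1 : IsConj g (x * (y * w)) ↔ IsConj g (x * y * w) := by rw [mul_assoc]
  have e2 : IsConj g (w * x * y) ↔ IsConj g (x * y * w) := by
    rw [mul_assoc w x y]; exact isConj_rot g w (x * y)
  by_cases h : IsConj g (x * y * w)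
  · rw [if_pos h, if_pos (e1.mpr h), if_pos (e2.mpr h)]
    obtain ⟨c, hc⟩ := isConj_iff.mp h
    have h1 : (w * c) * g * (w * c)⁻¹ = w * x * y := by
      have : (w * c) * g * (w * c)⁻¹ = w * (c * g * c⁻¹) * w⁻¹ := by group
      rw [this, hc]; group
    have hc' : c * g * c⁻¹ = x * (y * w) := by rw [hc]; group
    rw [C.Θ_eq w hc, C.Θ_eq (y * w) hc', C.Θ_eq y h1]
    have h2 : y * (w * c) = y * w * c := by group
    rw [h2]
    ring
  · rw [if_neg h, if_neg (fun h' => h (e1.mp h')), if_neg (fun h' => h (e2.mp h'))]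
    simp

end Char

section Pairing

variable {R : Type u} {G : Type v} [NormedRing R] [Group G] {g : G}

/-- the pairing attached to a kernel -/
def pr (T : BTr R) (k : G → G → ℝ) (a b : MonoidAlgebra R G) : ℂ :=
  a.coeff.sum fun x r => b.coeff.sum fun y s => (k x y : ℂ) * T.t (r * s)

lemma pr_add_left (T : BTr R) (k : G → G → ℝ) (a a' b : MonoidAlgebra R G) :
    pr T k (a + a') b = pr T k a b + pr T k a' b := by
  classical
  unfold pr
  rw [MonoidAlgebra.coeff_add]
  refine Finsupp.sum_add_index' (fun x => ?_) (fun x r r' => ?_)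
  · simp
  · rw [← Finsupp.sum_add]
    simp only [add_mul, map_add, mul_add]

lemma pr_add_right (T : BTr R) (k : G → G → ℝ) (a b b' : MonoidAlgebra R G) :
    pr T k a (b + b') = pr T k a b + pr T k a b' := by
  classical
  unfold pr
  rw [MonoidAlgebra.coeff_add, ← Finsupp.sum_add]
  refine Finsupp.sum_congr fun x _ => ?_
  refine Finsupp.sum_add_index' (fun y => ?_) (fun y r r' => ?_)
  · simp
  · simp only [map_add, mul_add]

lemma pr_zero_left (T : BTr R) (k : G → G → ℝ) (b : MonoidAlgebra R G) : pr T k 0 b = 0 := by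
  simp [pr]

lemma pr_zero_right (T : BTr R) (k : G → G → ℝ) (a : MonoidAlgebra R G) : pr T k a 0 = 0 := by
  simp [pr]

lemma pr_single (T : BTr R) (k : G → G → ℝ) (x y : G) (r s : R) :
    pr T k (.single x r) (.single y s) = (k x y : ℂ) * T.t (r * s) := by
  simp [pr]

/-- the pairing on `FinAlg` -/
def eta (T : BTr R) (C : TC g) (a b : FinAlg R G) : ℂ := pr T C.et a b

lemma eta_add_left (T : BTr R) (C : TC g) (a a' b : FinAlg R G) :
    eta T C (a + a') b = eta T C a b + eta T C a' b := pr_add_left T C.et a a' b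

lemma eta_add_right (T : BTr R) (C : TC g) (a b b' : FinAlg R G) :
    eta T C a (b + b') = eta T C a b + eta T C a b' := pr_add_right T C.et a b b'

lemma eta_zero_left (T : BTr R) (C : TC g) (b : FinAlg R G) : eta T C 0 b = 0 :=
  pr_zero_left T C.et b

lemma eta_zero_right (T : BTr R) (C : TC g) (a : FinAlg R G) : eta T C a 0 = 0 :=
  pr_zero_right T C.et a

lemma eta_sg (T : BTr R) (C : TC g) (x y : G) (r s : R) :
    eta T C (sg x r) (sg y s) = (C.et x y : ℂ) * T.t (r * s) := pr_single T C.et x y r s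

lemma eta_hoch (T : BTr R) (C : TC g) (a b c : FinAlg R G) :
    eta T C (a * b) c - eta T C a (b * c) + eta T C (c * a) b = 0 := by
  induction a using ind with
  | zero => simp [eta_zero_left]
  | add a a' h h' =>
    rw [add_mul, eta_add_left, eta_add_left, mul_add, eta_add_left]
    linear_combination h + h'
  | single x r =>
    induction b using ind with
    | zero => simp [eta_zero_left, eta_zero_right]
    | add b b' h h' =>
      rw [mul_add, eta_add_left, add_mul, eta_add_right, eta_add_right]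
      linear_combination h + h'
    | single y s =>
      induction c using ind with
      | zero => simp [eta_zero_left, eta_zero_right]
      | add c c' h h' =>
        rw [eta_add_right, mul_add, eta_add_right, add_mul, eta_add_left]
        linear_combination h + h'
      | single w u =>
        rw [sg_mul_sg, sg_mul_sg, sg_mul_sg, eta_sg, eta_sg, eta_sg]
        have h1 : T.t (u * r * s) = T.t (r * s * u) := by rw [mul_assoc u r s, T.comm]
        rw [h1, ← mul_assoc r s u]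
        have h2 : ((C.et (x * y) w : ℝ) : ℂ) - C.et x (y * w) + C.et (w * x) y = 0 := by
          exact_mod_cast congrArg (fun t : ℝ => (t : ℂ)) (C.et_hoch x y w)
        linear_combination T.t (r * s * u) * h2

lemma eta_symm (T : BTr R) (C : TC g) (a b : FinAlg R G) :
    eta T C a b + eta T C b a = (C.ψ g : ℂ) * sig0 T {z | IsConj g z} (a * b) := by
  classical
  induction a using ind with
  | zero => simp [eta_zero_left, eta_zero_right]
  | add a a' h h' =>
    rw [eta_add_left, eta_add_right, add_mul, map_add]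
    linear_combination h + h'
  | single x r =>
    induction b using ind with
    | zero => simp [eta_zero_left, eta_zero_right]
    | add b b' h h' =>
      rw [eta_add_left, eta_add_right, mul_add, map_add]
      linear_combination h + h'
    | single y s =>
      rw [sg_mul_sg, eta_sg, eta_sg, sig0_sg, T.comm s r]
      have h2 := congrArg (fun t : ℝ => (t : ℂ)) (C.et_symm x y)
      simp only [Complex.ofReal_add] at h2
      rw [← add_mul, h2, Set.mem_ofPred_eq]
      split_ifs <;> simp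

lemma eta_bound (T : BTr R) (C : TC g) (a b : FinAlg R G) :
    ‖eta T C a b‖ ≤ T.K * (‖a‖ * wn (R := R) (G := G) C.ℓ b) := by
  have h0 : eta T C a b = ∑ x ∈ (MonoidAlgebra.coeff (R := R) (M := G) a).support,
      ∑ y ∈ (MonoidAlgebra.coeff (R := R) (M := G) b).support,
      (C.et x y : ℂ) * T.t ((MonoidAlgebra.coeff (R := R) (M := G) a) x *
        (MonoidAlgebra.coeff (R := R) (M := G) b) y) := rfl
  have h1 : ‖a‖ = ∑ g ∈ (MonoidAlgebra.coeff (R := R) (M := G) a).support,
      ‖(MonoidAlgebra.coeff (R := R) (M := G) a) g‖ := l1_eq_sum (R := R) (G := G) a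
  rw [h0, h1, wn_eq (R := R) (G := G) C.ℓ b _ le_rfl, Finset.sum_mul_sum, Finset.mul_sum]
  refine norm_sum_le_of_le _ fun x _ => ?_
  rw [Finset.mul_sum]
  refine norm_sum_le_of_le _ fun y _ => ?_
  rw [norm_mul, Complex.norm_real, Real.norm_eq_abs]
  have h2 := C.et_bound x y
  have h3 := T.bound ((MonoidAlgebra.coeff (R := R) (M := G) a) x *
        (MonoidAlgebra.coeff (R := R) (M := G) b) y)
  have h4 := norm_mul_le ((MonoidAlgebra.coeff (R := R) (M := G) a) x)
        ((MonoidAlgebra.coeff (R := R) (M := G) b) y)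
  have h5 : T.K * ‖(MonoidAlgebra.coeff (R := R) (M := G) a) x *
        (MonoidAlgebra.coeff (R := R) (M := G) b) y‖ ≤
      T.K * (‖(MonoidAlgebra.coeff (R := R) (M := G) a) x‖ *
        ‖(MonoidAlgebra.coeff (R := R) (M := G) b) y‖) :=
    mul_le_mul_of_nonneg_left h4 T.K_nonneg
  calc |C.et x y| * ‖T.t ((MonoidAlgebra.coeff (R := R) (M := G) a) x *
        (MonoidAlgebra.coeff (R := R) (M := G) b) y)‖
      ≤ C.ℓ y * (T.K * (‖(MonoidAlgebra.coeff (R := R) (M := G) a) x‖ *
        ‖(MonoidAlgebra.coeff (R := R) (M := G) b) y‖)) :=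
        mul_le_mul h2 (h3.trans h5) (norm_nonneg _) (C.ℓ_nonneg y)
    _ = _ := by ring

/-- the key estimate for almost idempotents -/
lemma key_estimate (T : BTr R) (C : TC g) (a : FinAlg R G) :
    |C.ψ g| * ‖sig0 T {z | IsConj g z} (a * a)‖ ≤
      2 * |C.ψ g| * (T.K * (‖a‖ * ‖dfc a‖)) +
        6 * (T.K * (‖dfc a‖ * wn (R := R) (G := G) C.ℓ a)) := by
  set r := dfc a with hr
  have haa : a * a = a + r := by rw [hr]; unfold dfc; abel
  have h1 := eta_hoch T C a a a
  rw [haa, eta_add_left, eta_add_right] at h1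
  have h2 := eta_symm T C a r
  have h3 := eta_symm T C a a
  have h4 : (C.ψ g : ℂ) * sig0 T {z | IsConj g z} (a * a) =
      2 * ((C.ψ g : ℂ) * sig0 T {z | IsConj g z} (a * r)) - 6 * eta T C r a := by
    linear_combination (-1) * h3 + 2 * h2 + 2 * h1
  have h5 : |C.ψ g| * ‖sig0 T {z | IsConj g z} (a * a)‖ =
      ‖(C.ψ g : ℂ) * sig0 T {z | IsConj g z} (a * a)‖ := by
    rw [norm_mul, Complex.norm_real, Real.norm_eq_abs]
  rw [h5, h4]
  refine (norm_sub_le _ _).trans ?_
  have h6 := eta_bound T C r a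
  have h7 : ‖sig0 T {z | IsConj g z} (a * r)‖ ≤ T.K * (‖a‖ * ‖r‖) :=
    (sig0_bound T _ _).trans (mul_le_mul_of_nonneg_left (norm_mul_le _ _) T.K_nonneg)
  rw [norm_mul, norm_mul, norm_mul, Complex.norm_real, Real.norm_eq_abs]
  have h8 : |C.ψ g| * ‖sig0 T {z | IsConj g z} (a * r)‖ ≤ |C.ψ g| * (T.K * (‖a‖ * ‖r‖)) :=
    mul_le_mul_of_nonneg_left h7 (abs_nonneg _)
  have n2 : ‖(2 : ℂ)‖ = 2 := by norm_num
  have n6 : ‖(6 : ℂ)‖ = 6 := by norm_num
  rw [n2, n6]
  linarith

/-- the weight given by a length function -/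
def wtOf (C : TC g) : Wt (FinAlg R G) where
  w := fun a => wn (R := R) (G := G) C.ℓ a
  nonneg := fun a => wn_nonneg (R := R) C.ℓ_nonneg a
  add_le := fun a b => wn_add_le (R := R) C.ℓ_nonneg a b
  neg_eq := fun a => wn_neg (R := R) C.ℓ a
  mul_le := fun a b => wn_mul_le (R := R) C.ℓ_nonneg C.ℓ_mul a b

/-- vanishing for limits of Newton sequences -/
theorem vanish_limit (T : BTr R) (C : TC g) {x : FinAlg R G} {M : ℝ} {f : BA R G}
    (hf : Tendsto (fun n => ((seq x n : FinAlg R G) : BA R G)) atTop (𝓝 f))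
    (hM : ∀ n, ‖seq x n‖ ≤ M) (hd : Tendsto (fun n => ‖dfc (seq x n)‖) atTop (𝓝 0))
    (hW : ∀ W : Wt (FinAlg R G), Tendsto (fun n => ‖dfc (seq x n)‖ * W.w (seq x n)) atTop (𝓝 0)) :
    sig T {z | IsConj g z} f = 0 := by
  have hM0 : 0 ≤ M := (norm_nonneg _).trans (hM 0)
  -- the values on the squares tend to zero
  have h1 : Tendsto (fun n => |C.ψ g| * ‖sig0 T {z | IsConj g z} (seq x n * seq x n)‖)
      atTop (𝓝 0) := by
    have hA : Tendsto (fun n => 2 * |C.ψ g| * (T.K * (M * ‖dfc (seq x n)‖)) +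
        6 * (T.K * (‖dfc (seq x n)‖ * (wtOf C).w (seq x n)))) atTop (𝓝 0) := by
      have e1 := ((hd.const_mul M).const_mul T.K).const_mul (2 * |C.ψ g|)
      have e2 := ((hW (wtOf C)).const_mul T.K).const_mul 6
      simpa using e1.add e2
    refine squeeze_zero (fun n => by positivity) (fun n => ?_) hA
    refine (key_estimate T C (seq x n)).trans ?_
    have hK := T.K_nonneg
    have : T.K * (‖seq x n‖ * ‖dfc (seq x n)‖) ≤ T.K * (M * ‖dfc (seq x n)‖) := by
      gcongr
      exact hM n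
    have h2 : 2 * |C.ψ g| * (T.K * (‖seq x n‖ * ‖dfc (seq x n)‖)) ≤
        2 * |C.ψ g| * (T.K * (M * ‖dfc (seq x n)‖)) :=
      mul_le_mul_of_nonneg_left this (by positivity)
    exact add_le_add h2 le_rfl
  have hψ : 0 < |C.ψ g| := abs_pos.mpr C.ψ_ne
  have h2 : Tendsto (fun n => ‖sig0 T {z | IsConj g z} (seq x n * seq x n)‖) atTop (𝓝 0) := by
    have := h1.const_mul (|C.ψ g|⁻¹)
    simp only [mul_zero] at this
    refine this.congr fun n => ?_
    rw [← mul_assoc, inv_mul_cancel₀ hψ.ne', one_mul]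
  have h3 : Tendsto (fun n => sig0 T {z | IsConj g z} (seq x n * seq x n)) atTop (𝓝 0) :=
    tendsto_zero_iff_norm_tendsto_zero.mpr h2
  have h4 : Tendsto (fun n => sig0 T {z | IsConj g z} (dfc (seq x n))) atTop (𝓝 0) := by
    rw [tendsto_zero_iff_norm_tendsto_zero]
    refine squeeze_zero (fun n => norm_nonneg _) (fun n => sig0_bound T _ _) ?_
    simpa using hd.const_mul T.K
  have h5 : Tendsto (fun n => sig0 T {z | IsConj g z} (seq x n)) atTop (𝓝 0) := by
    have := h3.sub h4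
    simp only [sub_zero] at this
    refine this.congr fun n => ?_
    rw [← map_sub]
    congr 1
    unfold dfc; abel
  have h6 : Tendsto (fun n => sig T {z | IsConj g z} ((seq x n : FinAlg R G) : BA R G)) atTop
      (𝓝 (sig T {z | IsConj g z} f)) := ((sig T {z | IsConj g z}).continuous.tendsto f).comp hf
  simp only [sig_coe] at h6
  exact tendsto_nhds_unique h6 h5

end Pairing

end

end Vale.Agent.P184
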