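import Vale.Agent.Lib.P184.Cat0

namespace Vale.Agent.P184

universe u v

theorem hasTranslationCharacter_of_CAT0 {G : Type u} [Group G] {X : Type v} [MetricSpace X]
    [MulAction G X] [IsIsometricSMul G X] (hX : IsCAT0 X) (g : G)
    (hg : PositiveTranslationLength X g) : HasTranslationCharacter g := by
  obtain ⟨x, c, hc, hx⟩ := hg
  exact translationCharacter_of_quad (quad_of_CN hX) g x c hc hx

/-- from vanishing at all elements of infinite order to the full property -/
theorem l1Bass_of_vanishesAt {G : Type u} [Group G]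
    (hfin : {c : ConjClasses G | ∀ g ∈ c.carrier, IsOfFinOrder g}.Finite)
    (h : ∀ g : G, ¬ IsOfFinOrder g → VanishesAt g) : L1Bass G := by
  intro q e he
  refine ⟨hfin.toFinset, fun c hc => by simpa using hc, fun c hc => ?_⟩
  have hc' : ∃ g ∈ c.carrier, ¬ IsOfFinOrder g := by
    by_contra hcon
    apply hc
    rw [Set.Finite.mem_toFinset]
    intro g hg
    by_contra hg'
    exact hcon ⟨g, hg, hg'⟩
  obtain ⟨g, hg, hg'⟩ := hc'
  have hcg : c = ConjClasses.mk g := (ConjClasses.mem_carrier_iff_mk_eq.mp hg).symm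
  rw [hcg]
  exact h g hg' q e he

end Vale.Agent.P184
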