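import Vale.Agent.Lib.P184.Cor

/-!
# P184: second form of the results (matrices over Mathlib's `ℓ¹` space, centralizer characters)
-/

namespace Vale.Agent.P184.Draw3

open Vale.Agent.P184

universe u v

/-- The matrix `e` with entries in `ℓ¹(G)` is idempotent for the convolution product
`(a * b)(g) = ∑_h a(h) b(h⁻¹ g)`. -/
def Idempotent {G : Type u} [Group G] {q : ℕ}
    (e : Matrix (Fin q) (Fin q) (lp (fun _ : G => ℂ) 1)) : Prop :=
  ∀ i j g, ∑ k, ∑' h : G, e i k h * e k j (h⁻¹ * g) = e i j g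

/-- The coefficient `τ_C(e) = ∑_{x ∈ C} ∑_i e_ii(x)` of the Hattori-Stallings trace at the
conjugacy class `C` of `g`. -/
noncomputable def tau {G : Type u} [Group G] {q : ℕ}
    (e : Matrix (Fin q) (Fin q) (lp (fun _ : G => ℂ) 1)) (g : G) : ℂ :=
  ∑' x : {x : G // IsConj g x}, ∑ i, e i i x

/-- `h` translates: some group action of `H` by isometries on some metric space satisfying the
Bruhat-Tits (CN) inequality (every CAT(0) space does) has a point `x` with
`d(x, hⁿ x) ≥ c n` for all `n`, where `c > 0`. -/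
def TranslatesOnCAT0 {H : Type u} [Group H] (h : H) : Prop :=
  ∃ (X : Type v) (_ : MetricSpace X) (_ : MulAction H X),
    (∀ (k : H) (x y : X), dist (k • x) (k • y) = dist x y) ∧
    (∀ p q : X, ∃ m : X, ∀ x : X,
      dist x m ^ 2 ≤ (dist x p ^ 2 + dist x q ^ 2) / 2 - dist p q ^ 2 / 4) ∧
    ∃ (x : X) (c : ℝ), 0 < c ∧ ∀ n : ℕ, c * n ≤ dist x (h ^ n • x)

/-- There is a homomorphism from the centralizer of `h` to `ℝ` which is nonzero at `h` and is
bounded by (the restriction of) a length function of the whole group. -/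
def HasCentralizerCharacter {H : Type u} [Group H] (h : H) : Prop :=
  ∃ (len : H → ℝ) (ψ : Subgroup.centralizer ({h} : Set H) →* Multiplicative ℝ),
    (∀ x y, len (x * y) ≤ len x + len y) ∧ (∀ x, len x⁻¹ = len x) ∧
    (∀ x, |(ψ x).toAdd| ≤ len x) ∧
    (ψ ⟨h, Subgroup.mem_centralizer_singleton_iff.2 rfl⟩).toAdd ≠ 0

/-- Every finitely generated subgroup containing `g` has a centralizer character at `g` or acts
on some CAT(0) space so that `g` has positive translation length. -/
def LocallyTranslates {G : Type u} [Group G] (g : G) : Prop :=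
  ∀ (H : Subgroup G) (hg : g ∈ H), H.FG →
    HasCentralizerCharacter (⟨g, hg⟩ : H) ∨ TranslatesOnCAT0.{u, v} (⟨g, hg⟩ : H)

lemma summable_norm_entry {G : Type u} (a : lp (fun _ : G => ℂ) 1) :
    Summable fun g : G => ‖a g‖ := by
  have h := (memℓp_gen_iff (p := 1) (by norm_num)).1 (lp.memℓp a)
  simpa using h

lemma isL1Idempotent {G : Type u} [Group G] {q : ℕ}
    {e : Matrix (Fin q) (Fin q) (lp (fun _ : G => ℂ) 1)} (he : Idempotent e) :
    IsL1Idempotent q (fun i j g => e i j g) :=
  ⟨fun i j => summable_norm_entry (e i j), fun i j g => he i j g⟩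

lemma tau_eq {G : Type u} [Group G] {q : ℕ}
    (e : Matrix (Fin q) (Fin q) (lp (fun _ : G => ℂ) 1)) (g : G) :
    tau e g = hsCoeff q (fun i j g => e i j g) (ConjClasses.mk g) := by
  unfold tau hsCoeff
  have hs : (ConjClasses.mk g).carrier = {x : G | IsConj g x} := by
    ext x
    rw [ConjClasses.mem_carrier_iff_mk_eq, ConjClasses.mk_eq_mk_iff_isConj, Set.mem_ofPred_eq,
      isConj_comm]
  rw [hs]
  rfl

lemma tau_eq_zero {G : Type u} [Group G] {g : G} (h : VanishesAt g) {q : ℕ}
    {e : Matrix (Fin q) (Fin q) (lp (fun _ : G => ℂ) 1)} (he : Idempotent e) : tau e g = 0 := by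
  rw [tau_eq]
  exact h q _ (isL1Idempotent he)

lemma translationCharacter_of_centralizer {H : Type u} [Group H] {h : H}
    (hh : HasCentralizerCharacter h) : HasTranslationCharacter h := by
  classical
  obtain ⟨len, ψ, h1, h2, h3, h4⟩ := hh
  have hmem : ∀ {x : H}, Commute h x → x ∈ Subgroup.centralizer ({h} : Set H) := fun hx =>
    Subgroup.mem_centralizer_singleton_iff.2 hx.eq.symm
  refine ⟨len, fun x => if hx : Commute h x then (ψ ⟨x, hmem hx⟩).toAdd else 0, h1, h2, ?_, ?_, ?_⟩
  · intro x y hx hy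
    have hxy : Commute h (x * y) := hx.mul_right hy
    simp only [hx, hy, hxy, dif_pos]
    rw [← toAdd_mul, ← map_mul]
    rfl
  · intro x hx
    simp only [hx, dif_pos]
    exact h3 ⟨x, hmem hx⟩
  · simp only [Commute.refl, dif_pos]
    exact h4

lemma translationCharacter_of_translates {H : Type u} [Group H] {h : H}
    (hh : TranslatesOnCAT0.{u, v} h) : HasTranslationCharacter h := by
  obtain ⟨X, iX, iA, hiso, hCN, x, c, hc, hx⟩ := hh
  have : IsIsometricSMul H X := ⟨fun k => Isometry.of_dist_eq (hiso k)⟩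
  refine hasTranslationCharacter_of_CAT0 (X := X) (fun p q => ?_) h ⟨x, c, hc, hx⟩
  obtain ⟨m, hm⟩ := hCN p q
  exact ⟨m, fun y => by have := hm y; linarith⟩

lemma vanishesAt_of_locallyTranslates {G : Type u} [Group G] {g : G}
    (h : LocallyTranslates.{u, v} g) : VanishesAt g :=
  vanishesAt_of_local g fun H hg hH =>
    (h H hg hH).elim translationCharacter_of_centralizer translationCharacter_of_translates

lemma locallyTranslates_of_translates {G : Type u} [Group G] {g : G}
    (h : TranslatesOnCAT0.{u, v} g) : LocallyTranslates.{u, v} g := by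
  intro H hg _
  right
  obtain ⟨X, iX, iA, hiso, hCN, x, c, hc, hx⟩ := h
  exact ⟨X, iX, Subgroup.instMulAction, fun k y z => hiso (k : G) y z, hCN, x, c, hc,
    fun n => hx n⟩

lemma finite_support {G : Type u} [Group G]
    (hfin : ∃ S : Finset G, ∀ g : G, IsOfFinOrder g → ∃ s ∈ S, IsConj s g)
    (h : ∀ g : G, ¬ IsOfFinOrder g → VanishesAt g) {q : ℕ}
    {e : Matrix (Fin q) (Fin q) (lp (fun _ : G => ℂ) 1)} (he : Idempotent e) :
    ∃ F : Finset G, (∀ s ∈ F, IsOfFinOrder s) ∧
      ∀ g : G, (∀ s ∈ F, ¬ IsConj s g) → tau e g = 0 := by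
  classical
  obtain ⟨S, hS⟩ := hfin
  refine ⟨S.filter fun s => IsOfFinOrder s, fun s hs => (Finset.mem_filter.1 hs).2, fun g hg => ?_⟩
  refine tau_eq_zero (h g fun hgf => ?_) he
  obtain ⟨s, hs, hsg⟩ := hS g hgf
  have hsf : IsOfFinOrder s := by
    obtain ⟨c, hc⟩ := isConj_iff.1 hsg
    have h1 : s = c⁻¹ * g * c := by rw [← hc]; group
    obtain ⟨n, hn, hgn⟩ := isOfFinOrder_iff_pow_eq_one.1 hgf
    refine isOfFinOrder_iff_pow_eq_one.2 ⟨n, hn, ?_⟩
    have h2 : (c⁻¹ * g * c) ^ n = c⁻¹ * g ^ n * c := by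
      have := conj_pow (i := n) (a := c⁻¹) (b := g)
      simpa using this
    rw [h1, h2, hgn]
    group
  exact hg s (Finset.mem_filter.2 ⟨hs, hsf⟩) hsg

end Vale.Agent.P184.Draw3
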