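import Vale.Agent.Lib.P184.L1

namespace Vale.Agent.P184

open UniformSpace

noncomputable section

universe u v

variable {R : Type u} {G : Type v} [NormedRing R] [Group G]

/-- the Banach algebra `ℓ¹(G, R)`, as the completion of the group algebra -/
abbrev BA (R : Type u) (G : Type v) [NormedRing R] [Group G] : Type (max u v) :=
  Completion (FinAlg R G)

/-- `sg g` as a continuous additive map into the completion -/
def sgHom (g : G) : R →+ BA R G where
  toFun r := ((sg g r : FinAlg R G) : BA R G)
  map_zero' := by rw [sg_zero]; exact Completion.coe_zero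
  map_add' r s := by rw [sg_add]; exact Completion.coe_add _ _

lemma norm_sgHom (g : G) (r : R) : ‖(sgHom g r : BA R G)‖ = ‖r‖ := by
  change ‖((sg g r : FinAlg R G) : BA R G)‖ = ‖r‖
  rw [Completion.norm_coe, norm_sg]

lemma sgHom_continuous (g : G) : Continuous (sgHom g : R →+ BA R G) :=
  AddMonoidHomClass.continuous_of_bound (sgHom g : R →+ BA R G) 1
    (fun r => by rw [norm_sgHom, one_mul])

lemma sgHom_mul (g h : G) (r s : R) : (sgHom g r : BA R G) * sgHom h s = sgHom (g * h) (r * s) := by
  change ((sg g r : FinAlg R G) : BA R G) * ((sg h s : FinAlg R G) : BA R G) =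
    ((sg (g * h) (r * s) : FinAlg R G) : BA R G)
  rw [← Completion.coe_mul, sg_mul_sg]

/-- the element of the Banach algebra given by an absolutely summable function -/
def emb (E : G → R) : BA R G := ∑' g, sgHom g (E g)

lemma summable_norm_emb {E : G → R} (hE : Summable fun g => ‖E g‖) :
    Summable fun g => ‖(sgHom g (E g) : BA R G)‖ := by
  simpa only [norm_sgHom] using hE

lemma summable_emb {E : G → R} (hE : Summable fun g => ‖E g‖) :
    Summable fun g => (sgHom g (E g) : BA R G) :=
  (summable_norm_emb hE).of_norm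

/-- reindexing `(g, h) ↦ (h, h⁻¹ g)` -/
def reidx (G : Type v) [Group G] : G × G ≃ G × G where
  toFun p := (p.2, p.2⁻¹ * p.1)
  invFun p := (p.1 * p.2, p.1)
  left_inv p := by simp
  right_inv p := by simp

lemma summable_conv [CompleteSpace R] {E F : G → R} (hE : Summable fun g => ‖E g‖)
    (hF : Summable fun g => ‖F g‖) :
    Summable fun p : G × G => ‖E p.2 * F (p.2⁻¹ * p.1)‖ := by
  have h2 : Summable fun x : G × G => ‖E x.1 * F x.2‖ := hE.mul_norm hF
  have h3 : Summable ((fun x : G × G => ‖E x.1 * F x.2‖) ∘ (reidx G)) :=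
    (reidx G).summable_iff.mpr h2
  exact h3

lemma emb_mul [CompleteSpace R] {E F : G → R} (hE : Summable fun g => ‖E g‖)
    (hF : Summable fun g => ‖F g‖) :
    emb E * emb F = emb (fun g => ∑' h, E h * F (h⁻¹ * g)) := by
  have hs := summable_conv hE hF
  have h1 : emb E * emb F = ∑' z : G × G, (sgHom z.1 (E z.1) : BA R G) * sgHom z.2 (F z.2) :=
    tsum_mul_tsum_of_summable_norm (summable_norm_emb hE) (summable_norm_emb hF)
  rw [h1, ← (reidx G).tsum_eq]
  have h3 : ∀ p : G × G, (sgHom ((reidx G) p).1 (E ((reidx G) p).1) : BA R G) *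
      sgHom ((reidx G) p).2 (F ((reidx G) p).2) =
      sgHom p.1 (E p.2 * F (p.2⁻¹ * p.1)) := by
    intro p
    rw [sgHom_mul]
    simp [reidx]
  simp only [h3]
  have h4 : Summable fun p : G × G => (sgHom p.1 (E p.2 * F (p.2⁻¹ * p.1)) : BA R G) := by
    apply Summable.of_norm
    simpa only [norm_sgHom] using hs
  rw [h4.tsum_prod, emb]
  refine tsum_congr fun g => ?_
  have h5 : Summable fun h => E h * F (h⁻¹ * g) := (hs.of_norm).prod_factor g
  exact (h5.map_tsum (sgHom g) (sgHom_continuous g)).symm

/-- A bounded trace on a normed ring. -/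
structure BTr (R : Type u) [NormedRing R] where
  /-- the underlying additive map -/
  t : R →+ ℂ
  /-- a bound -/
  K : ℝ
  K_nonneg : 0 ≤ K
  bound : ∀ r, ‖t r‖ ≤ K * ‖r‖
  comm : ∀ r s, t (r * s) = t (s * r)

lemma BTr.continuous (T : BTr R) : Continuous T.t :=
  AddMonoidHomClass.continuous_of_bound T.t T.K T.bound

open Classical in
/-- partial sums of the trace on a subset `D` of `G` -/
def sig0 (T : BTr R) (D : Set G) : FinAlg R G →+ ℂ :=
  (Finsupp.liftAddHom fun g : G => if g ∈ D then T.t else 0).comp
    (MonoidAlgebra.coeffAddEquiv (R := R) (M := G)).toAddMonoidHom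

open Classical in
lemma sig0_sg (T : BTr R) (D : Set G) (g : G) (r : R) :
    sig0 T D (sg g r) = if g ∈ D then T.t r else 0 := by
  change (Finsupp.liftAddHom fun g : G => if g ∈ D then T.t else 0) (Finsupp.single g r) = _
  rw [Finsupp.liftAddHom_apply_single]
  split_ifs <;> rfl

lemma sig0_bound (T : BTr R) (D : Set G) (a : FinAlg R G) : ‖sig0 T D a‖ ≤ T.K * ‖a‖ := by
  classical
  have h : sig0 T D a = ∑ g ∈ (MonoidAlgebra.coeff (R := R) (M := G) a).support,
      (if g ∈ D then T.t else 0) ((MonoidAlgebra.coeff (R := R) (M := G) a) g) := rfl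
  have h' : ‖a‖ = ∑ g ∈ (MonoidAlgebra.coeff (R := R) (M := G) a).support,
      ‖(MonoidAlgebra.coeff (R := R) (M := G) a) g‖ := l1_eq_sum (R := R) (G := G) a
  rw [h, h', Finset.mul_sum]
  refine norm_sum_le_of_le _ fun g _ => ?_
  split_ifs
  · exact T.bound _
  · simpa using mul_nonneg T.K_nonneg (norm_nonneg _)

/-- `sig0` as a bounded map -/
def sig1 (T : BTr R) (D : Set G) : NormedAddGroupHom (FinAlg R G) ℂ :=
  (sig0 T D).mkNormedAddGroupHom T.K (sig0_bound T D)

/-- the trace summed over a subset `D`, on the Banach algebra -/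
def sig (T : BTr R) (D : Set G) : NormedAddGroupHom (BA R G) ℂ := (sig1 T D).extension

lemma sig_coe (T : BTr R) (D : Set G) (a : FinAlg R G) :
    sig T D (a : BA R G) = sig0 T D a := (sig1 T D).extension_coe a

open Classical in
lemma sig_sgHom (T : BTr R) (D : Set G) (g : G) (r : R) :
    sig T D (sgHom g r) = if g ∈ D then T.t r else 0 := by
  rw [← sig0_sg]
  exact sig_coe T D _

open Classical in
lemma sig_emb (T : BTr R) (D : Set G) {E : G → R} (hE : Summable fun g => ‖E g‖) :
    sig T D (emb E) = ∑' g, if g ∈ D then T.t (E g) else 0 := by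
  rw [emb]
  have h := (summable_emb hE).map_tsum (sig T D) (sig T D).continuous
  rw [h]
  exact tsum_congr fun g => sig_sgHom T D g (E g)

/-- a set closed under conjugation -/
def ConjInv (D : Set G) : Prop := ∀ x y : G, x * y ∈ D → y * x ∈ D

lemma sig0_comm (T : BTr R) {D : Set G} (hD : ConjInv D) (a b : FinAlg R G) :
    sig0 T D (a * b) = sig0 T D (b * a) := by
  classical
  induction a using ind with
  | zero => simp
  | add x y hx hy => rw [add_mul, mul_add, map_add, map_add, hx, hy]
  | single g r =>
    induction b using ind with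
    | zero => simp
    | add x y hx hy => rw [add_mul, mul_add, map_add, map_add, hx, hy]
    | single h s =>
      rw [sg_mul_sg, sg_mul_sg, sig0_sg, sig0_sg, T.comm]
      have : g * h ∈ D ↔ h * g ∈ D := ⟨hD _ _, hD _ _⟩
      simp only [this]

lemma sig_comm (T : BTr R) {D : Set G} (hD : ConjInv D) (a b : BA R G) :
    sig T D (a * b) = sig T D (b * a) := by
  refine Completion.induction_on₂ a b ?_ ?_
  · exact isClosed_eq ((sig T D).continuous.comp (continuous_fst.mul continuous_snd))
      ((sig T D).continuous.comp (continuous_snd.mul continuous_fst))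
  · intro a b
    rw [← Completion.coe_mul, ← Completion.coe_mul, sig_coe, sig_coe, sig0_comm T hD]

end

end Vale.Agent.P184
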