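import Mathlib

namespace Vale.Agent.P184

open MonoidAlgebra

noncomputable section

universe u v

section WNorm

variable {R : Type u} {G : Type v} [NormedRing R] [Group G]

/-- weighted `ℓ¹` norm of a finitely supported function -/
def wn (w : G → ℝ) (a : MonoidAlgebra R G) : ℝ := a.coeff.sum fun g r => ‖r‖ * w g

lemma wn_eq (w : G → ℝ) (a : MonoidAlgebra R G) (s : Finset G) (h : a.coeff.support ⊆ s) :
    wn w a = ∑ g ∈ s, ‖a.coeff g‖ * w g :=
  Finsupp.sum_of_support_subset _ h _ (by simp)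

lemma wn_zero (w : G → ℝ) : wn w (0 : MonoidAlgebra R G) = 0 := by simp [wn]

lemma wn_single (w : G → ℝ) (g : G) (r : R) : wn w (single g r) = ‖r‖ * w g := by
  simp [wn]

lemma wn_nonneg {w : G → ℝ} (hw : ∀ g, 0 ≤ w g) (a : MonoidAlgebra R G) : 0 ≤ wn w a :=
  Finset.sum_nonneg fun g _ => mul_nonneg (norm_nonneg _) (hw g)

lemma wn_add_le {w : G → ℝ} (hw : ∀ g, 0 ≤ w g) (a b : MonoidAlgebra R G) :
    wn w (a + b) ≤ wn w a + wn w b := by
  classical
  rw [wn_eq w a (a.coeff.support ∪ b.coeff.support) Finset.subset_union_left,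
    wn_eq w b (a.coeff.support ∪ b.coeff.support) Finset.subset_union_right,
    wn_eq w (a + b) (a.coeff.support ∪ b.coeff.support) (by
      rw [coeff_add]; exact Finsupp.support_add),
    ← Finset.sum_add_distrib]
  refine Finset.sum_le_sum fun g _ => ?_
  rw [← add_mul, coeff_add, Finsupp.add_apply]
  exact mul_le_mul_of_nonneg_right (norm_add_le _ _) (hw g)

lemma wn_neg (w : G → ℝ) (a : MonoidAlgebra R G) : wn w (-a) = wn w a := by
  rw [wn_eq w (-a) a.coeff.support (by simp), wn_eq w a a.coeff.support le_rfl]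
  simp

lemma wn_sum_le {w : G → ℝ} (hw : ∀ g, 0 ≤ w g) {ι : Type*} (s : Finset ι)
    (f : ι → MonoidAlgebra R G) : wn w (∑ i ∈ s, f i) ≤ ∑ i ∈ s, wn w (f i) := by
  classical
  induction s using Finset.induction_on with
  | empty => simp [wn_zero]
  | insert i s hi ih =>
    rw [Finset.sum_insert hi, Finset.sum_insert hi]
    exact (wn_add_le hw _ _).trans (by gcongr)

lemma wn_mul_le_sum {w : G → ℝ} (hw : ∀ g, 0 ≤ w g) (a b : MonoidAlgebra R G) :
    wn w (a * b) ≤ ∑ g ∈ a.coeff.support, ∑ h ∈ b.coeff.support,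
      ‖a.coeff g‖ * ‖b.coeff h‖ * w (g * h) := by
  rw [mul_def, Finsupp.sum]
  refine (wn_sum_le hw _ _).trans (Finset.sum_le_sum fun g _ => ?_)
  rw [Finsupp.sum]
  refine (wn_sum_le hw _ _).trans (Finset.sum_le_sum fun h _ => ?_)
  rw [wn_single]
  exact mul_le_mul_of_nonneg_right (norm_mul_le _ _) (hw _)

/-- the `ℓ¹` norm of a finitely supported function -/
def l1 (a : MonoidAlgebra R G) : ℝ := wn (fun _ => 1) a

lemma l1_eq_sum (a : MonoidAlgebra R G) : l1 a = ∑ g ∈ a.coeff.support, ‖a.coeff g‖ := by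
  simp [l1, wn, Finsupp.sum]

lemma l1_mul_le (a b : MonoidAlgebra R G) : l1 (a * b) ≤ l1 a * l1 b := by
  refine (wn_mul_le_sum (fun _ => zero_le_one) a b).trans (le_of_eq ?_)
  rw [l1_eq_sum, l1_eq_sum, Finset.sum_mul_sum]
  simp

lemma wn_mul_le {w : G → ℝ} (hw : ∀ g, 0 ≤ w g) (hw' : ∀ g h, w (g * h) ≤ w g + w h)
    (a b : MonoidAlgebra R G) : wn w (a * b) ≤ wn w a * l1 b + l1 a * wn w b := by
  refine (wn_mul_le_sum hw a b).trans ?_
  have h1 : wn w a * l1 b = ∑ g ∈ a.coeff.support, ∑ h ∈ b.coeff.support,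
      ‖a.coeff g‖ * ‖b.coeff h‖ * w g := by
    rw [l1_eq_sum, wn_eq w a _ le_rfl, Finset.sum_mul_sum]
    refine Finset.sum_congr rfl fun g _ => Finset.sum_congr rfl fun h _ => by ring
  have h2 : l1 a * wn w b = ∑ g ∈ a.coeff.support, ∑ h ∈ b.coeff.support,
      ‖a.coeff g‖ * ‖b.coeff h‖ * w h := by
    rw [l1_eq_sum, wn_eq w b _ le_rfl, Finset.sum_mul_sum]
    refine Finset.sum_congr rfl fun g _ => Finset.sum_congr rfl fun h _ => by ring
  rw [h1, h2, ← Finset.sum_add_distrib]
  refine Finset.sum_le_sum fun g _ => ?_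
  rw [← Finset.sum_add_distrib]
  refine Finset.sum_le_sum fun h _ => ?_
  rw [← mul_add]
  exact mul_le_mul_of_nonneg_left (hw' g h) (by positivity)

lemma l1_eq_zero {a : MonoidAlgebra R G} (h : l1 a = 0) : a = 0 := by
  rw [l1_eq_sum, Finset.sum_eq_zero_iff_of_nonneg (fun _ _ => norm_nonneg _)] at h
  ext g
  by_cases hg : g ∈ a.coeff.support
  · simpa using h g hg
  · simpa using hg

end WNorm

section Alg

/-- The group algebra with coefficients in `R`, as a normed ring for the `ℓ¹` norm. -/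
def FinAlg (R : Type u) (G : Type v) [Semiring R] : Type (max u v) := MonoidAlgebra R G

variable (R : Type u) (G : Type v) [NormedRing R] [Group G]

instance : Ring (FinAlg R G) := inferInstanceAs (Ring (MonoidAlgebra R G))

/-- the `ℓ¹` norm as a ring norm -/
def ringNorm : RingNorm (FinAlg R G) where
  toFun := fun a => l1 (R := R) (G := G) a
  map_zero' := wn_zero _
  add_le' := fun a b => wn_add_le (fun _ => zero_le_one) (R := R) a b
  neg' := fun a => wn_neg (R := R) _ a
  mul_le' := fun a b => l1_mul_le (R := R) a b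
  eq_zero_of_map_eq_zero' := fun a h => l1_eq_zero (R := R) h

instance : NormedRing (FinAlg R G) := (ringNorm R G).toNormedRing

variable {R G}

lemma norm_def (a : FinAlg R G) : ‖a‖ = l1 (R := R) (G := G) a := rfl

/-- the element `r·g` of the group algebra -/
def sg (g : G) (r : R) : FinAlg R G := single (R := R) g r

lemma norm_sg (g : G) (r : R) : ‖sg g r‖ = ‖r‖ := by
  rw [norm_def, sg, l1, wn_single, mul_one]

lemma sg_mul_sg (g h : G) (r s : R) : sg g r * sg h s = sg (g * h) (r * s) :=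
  single_mul_single g h r s

lemma sg_add (g : G) (r s : R) : sg g (r + s) = sg g r + sg g s :=
  single_add g r s

lemma sg_zero (g : G) : sg g (0 : R) = 0 := single_zero g

lemma ind {motive : FinAlg R G → Prop} (x : FinAlg R G) (zero : motive 0)
    (add : ∀ x y : FinAlg R G, motive x → motive y → motive (x + y))
    (single : ∀ m r, motive (sg m r)) : motive x :=
  MonoidAlgebra.induction_linear (R := R) (M := G) x zero add single

end Alg

end

end Vale.Agent.P184
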