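import Vale.Agent.Lib.P184.Cocycle

namespace Vale.Agent.P184

open UniformSpace Filter Topology

noncomputable section

universe u v w

section Map

variable {R : Type u} {G : Type v} {H : Type w} [NormedRing R] [Group G] [Group H]

/-- functoriality of the group algebra -/
def mp (R : Type u) [NormedRing R] (θ : H →* G) : FinAlg R H →+* FinAlg R G :=
  MonoidAlgebra.mapDomainRingHom R θ

lemma mp_sg (θ : H →* G) (h : H) (r : R) : mp R θ (sg h r) = sg (θ h) r := by
  change MonoidAlgebra.mapDomainRingHom R θ (MonoidAlgebra.single h r) =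
    MonoidAlgebra.single (θ h) r
  simp

lemma norm_mp (θ : H →* G) (hθ : Function.Injective θ) (a : FinAlg R H) :
    ‖mp R θ a‖ = ‖a‖ := by
  change ((MonoidAlgebra.mapDomainRingHom R θ (a : MonoidAlgebra R H)).coeff.sum
    fun _ r => ‖r‖ * 1) = (MonoidAlgebra.coeff (R := R) (M := H) a).sum fun _ r => ‖r‖ * 1
  have : (MonoidAlgebra.mapDomainRingHom R θ (a : MonoidAlgebra R H)).coeff =
      Finsupp.mapDomain θ (MonoidAlgebra.coeff (R := R) (M := H) a) := rfl
  rw [this, Finsupp.sum_mapDomain_index_inj hθ]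

lemma mp_continuous (θ : H →* G) (hθ : Function.Injective θ) : Continuous (mp R θ) :=
  AddMonoidHomClass.continuous_of_bound (mp R θ) 1 (fun a => by rw [norm_mp θ hθ, one_mul])

lemma exists_mp (S : Subgroup G) (a : FinAlg R G)
    (ha : ∀ g ∈ (MonoidAlgebra.coeff (R := R) (M := G) a).support, g ∈ S) :
    ∃ b : FinAlg R S, mp R S.subtype b = a := by
  have hinj : Function.Injective (S.subtype : S → G) := Subtype.val_injective
  refine ⟨MonoidAlgebra.ofCoeff (Finsupp.comapDomain S.subtype
    (MonoidAlgebra.coeff (R := R) (M := G) a) hinj.injOn), ?_⟩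
  have h1 : Finsupp.mapDomain S.subtype (Finsupp.comapDomain S.subtype
      (MonoidAlgebra.coeff (R := R) (M := G) a) hinj.injOn) =
      MonoidAlgebra.coeff (R := R) (M := G) a := by
    apply Finsupp.mapDomain_comapDomain _ hinj
    intro g hg
    exact ⟨⟨g, ha g (by simpa using hg)⟩, rfl⟩
  exact congrArg MonoidAlgebra.ofCoeff h1

/-- functoriality of the Banach algebra -/
def mpc (R : Type u) [NormedRing R] (θ : H →* G) (hθ : Function.Injective θ) :
    BA R H →+* BA R G :=
  Completion.mapRingHom (mp R θ) (mp_continuous θ hθ)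

lemma mpc_coe (θ : H →* G) (hθ : Function.Injective θ) (a : FinAlg R H) :
    mpc R θ hθ (a : BA R H) = ((mp R θ a : FinAlg R G) : BA R G) :=
  Completion.map_coe (AddMonoidHomClass.uniformContinuous_of_bound (mp R θ) 1
    (fun a => by rw [norm_mp θ hθ, one_mul])) a

lemma mpc_continuous (θ : H →* G) (hθ : Function.Injective θ) : Continuous (mpc R θ hθ) :=
  Completion.continuous_map

lemma norm_mpc (θ : H →* G) (hθ : Function.Injective θ) (a : BA R H) :
    ‖mpc R θ hθ a‖ = ‖a‖ := by
  refine Completion.induction_on a ?_ ?_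
  · exact isClosed_eq (mpc_continuous θ hθ).norm continuous_norm
  · intro a
    rw [mpc_coe, Completion.norm_coe, Completion.norm_coe, norm_mp θ hθ]

lemma sig0_mp (T : BTr R) (D : Set G) (θ : H →* G) (a : FinAlg R H) :
    sig0 T D (mp R θ a) = sig0 T (θ ⁻¹' D) a := by
  classical
  induction a using ind with
  | zero => simp
  | add x y hx hy => rw [map_add, map_add, map_add, hx, hy]
  | single h r => rw [mp_sg, sig0_sg, sig0_sg]; rfl

lemma sig_mpc (T : BTr R) (D : Set G) (θ : H →* G) (hθ : Function.Injective θ) (a : BA R H) :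
    sig T D (mpc R θ hθ a) = sig T (θ ⁻¹' D) a := by
  refine Completion.induction_on a ?_ ?_
  · exact isClosed_eq ((sig T D).continuous.comp (mpc_continuous θ hθ)) (sig T _).continuous
  · intro a
    rw [mpc_coe, sig_coe, sig_coe, sig0_mp]

end Map

section Classes

variable {R : Type u} {G : Type v} [NormedRing R] [Group G]

lemma sig0_finset (T : BTr R) (Q : Finset (ConjClasses G)) (a : FinAlg R G) :
    sig0 T {z | ConjClasses.mk z ∈ Q} a = ∑ c ∈ Q, sig0 T {z | ConjClasses.mk z = c} a := by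
  classical
  induction a using ind with
  | zero => simp
  | add x y hx hy =>
    rw [map_add, hx, hy, ← Finset.sum_add_distrib]
    exact Finset.sum_congr rfl fun c _ => (map_add _ _ _).symm
  | single h r =>
    rw [sig0_sg]
    simp only [sig0_sg, Set.mem_ofPred_eq]
    symm
    convert Finset.sum_ite_eq Q (ConjClasses.mk h) (fun _ => T.t r)

lemma sig_finset (T : BTr R) (Q : Finset (ConjClasses G)) (a : BA R G) :
    sig T {z | ConjClasses.mk z ∈ Q} a = ∑ c ∈ Q, sig T {z | ConjClasses.mk z = c} a := by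
  refine Completion.induction_on a ?_ ?_
  · exact isClosed_eq (sig T _).continuous
      (continuous_finsetSum _ fun c _ => (sig T _).continuous)
  · intro a
    simp only [sig_coe]
    exact sig0_finset T Q a

lemma sig0_congr (T : BTr R) (D D' : Set G) (a : FinAlg R G)
    (h : ∀ g ∈ (MonoidAlgebra.coeff (R := R) (M := G) a).support, g ∈ D ↔ g ∈ D') :
    sig0 T D a = sig0 T D' a := by
  classical
  have h0 : ∀ D : Set G, sig0 T D a = ∑ g ∈ (MonoidAlgebra.coeff (R := R) (M := G) a).support,
      (if g ∈ D then T.t else 0) ((MonoidAlgebra.coeff (R := R) (M := G) a) g) := fun D => rfl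
  rw [h0, h0]
  refine Finset.sum_congr rfl fun g hg => ?_
  simp only [h g hg]

lemma sig_bound (T : BTr R) (D : Set G) (a : BA R G) : ‖sig T D a‖ ≤ T.K * ‖a‖ := by
  refine Completion.induction_on a ?_ ?_
  · exact isClosed_le (sig T D).continuous.norm (continuous_const.mul continuous_norm)
  · intro a
    rw [sig_coe, Completion.norm_coe]
    exact sig0_bound T D a

lemma sig_zero_of_classes (T : BTr R) (D : Set G)
    (hD : ∀ x y, IsConj x y → x ∈ D → y ∈ D) (f : BA R G)
    (h : ∀ z ∈ D, sig T {w | IsConj z w} f = 0) : sig T D f = 0 := by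
  classical
  by_contra hne
  have hpos : 0 < ‖sig T D f‖ := norm_pos_iff.mpr hne
  have hK := T.K_nonneg
  set ε := ‖sig T D f‖ / (2 * (T.K + 1)) with hε
  have hε0 : 0 < ε := by positivity
  obtain ⟨b, hb⟩ : ∃ b : FinAlg R G, ‖f - (b : BA R G)‖ < ε := by
    have hdense := Completion.denseRange_coe (α := FinAlg R G)
    obtain ⟨b, hb⟩ := Metric.denseRange_iff.mp hdense f ε hε0
    exact ⟨b, by rwa [dist_eq_norm] at hb⟩
  set Q : Finset (ConjClasses G) :=
    (((MonoidAlgebra.coeff (R := R) (M := G) b).support).filter (· ∈ D)).image ConjClasses.mk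
    with hQ
  have hQD : ∀ c ∈ Q, ∃ z ∈ D, ConjClasses.mk z = c := by
    intro c hc
    rw [hQ, Finset.mem_image] at hc
    obtain ⟨z, hz, rfl⟩ := hc
    exact ⟨z, (Finset.mem_filter.mp hz).2, rfl⟩
  have h1 : sig T {z | ConjClasses.mk z ∈ Q} f = 0 := by
    rw [sig_finset]
    refine Finset.sum_eq_zero fun c hc => ?_
    obtain ⟨z, hz, rfl⟩ := hQD c hc
    have : {w : G | ConjClasses.mk w = ConjClasses.mk z} = {w | IsConj z w} := by
      ext w
      rw [Set.mem_ofPred_eq, Set.mem_ofPred_eq, ConjClasses.mk_eq_mk_iff_isConj]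
      exact isConj_comm
    rw [this]
    exact h z hz
  have h2 : sig0 T D b = sig0 T {z | ConjClasses.mk z ∈ Q} b := by
    apply sig0_congr
    intro g hg
    constructor
    · intro hgD
      rw [Set.mem_ofPred_eq, hQ]
      exact Finset.mem_image_of_mem _ (Finset.mem_filter.mpr ⟨hg, hgD⟩)
    · intro hgQ
      obtain ⟨z, hz, hzg⟩ := hQD _ hgQ
      exact hD z g (ConjClasses.mk_eq_mk_iff_isConj.mp hzg) hz
  have h3 : sig T D f = sig T D (f - b) - sig T {z | ConjClasses.mk z ∈ Q} (f - b) := by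
    rw [map_sub, map_sub, h1, sig_coe, sig_coe, h2]
    ring
  have h4 := sig_bound T D (f - b)
  have h5 := sig_bound T {z | ConjClasses.mk z ∈ Q} (f - b)
  have h6 : ‖sig T D f‖ ≤ 2 * T.K * ε := by
    rw [h3]
    refine (norm_sub_le _ _).trans ?_
    have : T.K * ‖f - (b : BA R G)‖ ≤ T.K * ε := by gcongr
    linarith
  have h7 : 2 * T.K * ε < ‖sig T D f‖ := by
    rw [hε]
    have : 2 * T.K * (‖sig T D f‖ / (2 * (T.K + 1))) = ‖sig T D f‖ * (T.K / (T.K + 1)) := by
      field_simp
    rw [this]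
    have h8 : T.K / (T.K + 1) < 1 := by
      rw [div_lt_one (by linarith)]; linarith
    nlinarith
  linarith

end Classes

section Transfer

variable {G : Type v} [Group G]

/-- conjugating a translation character -/
def TC.conj {g : G} (C : TC g) (k : G) : TC (k * g * k⁻¹) where
  ℓ x := C.ℓ (k⁻¹ * x * k)
  ψ x := C.ψ (k⁻¹ * x * k)
  ℓ_mul x y := by
    have := C.ℓ_mul (k⁻¹ * x * k) (k⁻¹ * y * k)
    have h : k⁻¹ * x * k * (k⁻¹ * y * k) = k⁻¹ * (x * y) * k := by group
    rwa [h] at this
  ℓ_inv x := by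
    have := C.ℓ_inv (k⁻¹ * x * k)
    have h : (k⁻¹ * x * k)⁻¹ = k⁻¹ * x⁻¹ * k := by group
    rwa [h] at this
  ψ_mul x y hx hy := by
    have aux : ∀ z, Commute (k * g * k⁻¹) z → Commute g (k⁻¹ * z * k) := by
      intro z hz
      have h1 : k * g * k⁻¹ * z = z * (k * g * k⁻¹) := hz
      change g * (k⁻¹ * z * k) = k⁻¹ * z * k * g
      calc g * (k⁻¹ * z * k) = k⁻¹ * (k * g * k⁻¹ * z) * k := by group
        _ = k⁻¹ * (z * (k * g * k⁻¹)) * k := by rw [h1]
        _ = k⁻¹ * z * k * g := by group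
    have := C.ψ_mul _ _ (aux x hx) (aux y hy)
    have h : k⁻¹ * x * k * (k⁻¹ * y * k) = k⁻¹ * (x * y) * k := by group
    rwa [h] at this
  ψ_le z hz := by
    refine C.ψ_le _ ?_
    have h1 : k * g * k⁻¹ * z = z * (k * g * k⁻¹) := hz
    change g * (k⁻¹ * z * k) = k⁻¹ * z * k * g
    calc g * (k⁻¹ * z * k) = k⁻¹ * (k * g * k⁻¹ * z) * k := by group
      _ = k⁻¹ * (z * (k * g * k⁻¹)) * k := by rw [h1]
      _ = k⁻¹ * z * k * g := by group
  ψ_ne := by
    have h : k⁻¹ * (k * g * k⁻¹) * k = g := by group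
    rw [h]
    exact C.ψ_ne

/-- pulling back a translation character along a homomorphism -/
def TC.comap {H : Type w} [Group H] (θ : H →* G) {h : H} {g : G} (hg : θ h = g) (C : TC g) :
    TC h where
  ℓ x := C.ℓ (θ x)
  ψ x := C.ψ (θ x)
  ℓ_mul x y := by rw [map_mul]; exact C.ℓ_mul _ _
  ℓ_inv x := by rw [map_inv]; exact C.ℓ_inv _
  ψ_mul x y hx hy := by
    rw [map_mul]
    exact C.ψ_mul _ _ (hg ▸ hx.map θ) (hg ▸ hy.map θ)
  ψ_le x hx := C.ψ_le _ (hg ▸ hx.map θ)
  ψ_ne := by rw [hg]; exact C.ψ_ne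

lemma HasTranslationCharacter.tc {g : G} (h : HasTranslationCharacter g) : Nonempty (TC g) := by
  obtain ⟨ℓ, ψ, h1, h2, h3, h4, h5⟩ := h
  exact ⟨⟨ℓ, ψ, h1, h2, h3, h4, h5⟩⟩

end Transfer

section Main

variable {R : Type u} {G : Type v} [NormedRing R] [CompleteSpace R] [Group G]

/-- The local criterion, for an idempotent of the Banach algebra. -/
theorem vanish_local (T : BTr R) (g : G)
    (hg : ∀ (H : Subgroup G) (hgH : g ∈ H), H.FG → HasTranslationCharacter (⟨g, hgH⟩ : H))
    (e : BA R G) (he : e * e = e) : sig T {z | IsConj g z} e = 0 := by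
  classical
  -- constants
  set N := ‖e‖ with hN
  have hN0 : 0 ≤ N := norm_nonneg _
  set M := N + 2 with hM
  set s := 1 / (12 * (1 + 2 * M) ^ 2) with hs
  have hM2 : 2 ≤ M := by linarith
  have hs0 : 0 < s := by positivity
  have hsq : (1 + 2 * M) ^ 2 * s = 1 / 12 := by
    rw [hs]; field_simp
  have hsq' : 0 ≤ (1 + 2 * M) * s := by positivity
  have hs1 : s ≤ 1 / 2 := by nlinarith
  have hs2 : (1 + 2 * M) * s ≤ 2 := by nlinarith
  have hs3 : (6 * M + 6 * M ^ 2) * s < 1 := by nlinarith
  set δ := s / (8 * M) with hδ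
  have hδ0 : 0 < δ := by positivity
  have hδM : 8 * M * δ = s := by rw [hδ]; field_simp
  have hδs : δ ≤ s / 16 := by nlinarith
  obtain ⟨a, ha⟩ : ∃ a : FinAlg R G, ‖e - (a : BA R G)‖ < δ := by
    have hdense := Completion.denseRange_coe (α := FinAlg R G)
    obtain ⟨b, hb⟩ := Metric.denseRange_iff.mp hdense e δ hδ0
    exact ⟨b, by rwa [dist_eq_norm] at hb⟩
  -- the finitely generated subgroup
  set S0 : Finset G := (MonoidAlgebra.coeff (R := R) (M := G) a).support with hS0
  set S : Set G := (S0 : Set G) with hS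
  set H : Subgroup G := Subgroup.closure S with hH
  obtain ⟨b, hb⟩ := exists_mp H a (fun x hx => Subgroup.subset_closure (by
    rw [hS, Finset.mem_coe]; exact hx))
  have hinj : Function.Injective (H.subtype : H → G) := Subtype.val_injective
  have hnb : ‖b‖ = ‖a‖ := by rw [← norm_mp H.subtype hinj, hb]
  have hna : ‖(a : BA R G)‖ = ‖a‖ := Completion.norm_coe a
  have hnb1 : ‖b‖ ≤ M - 1 := by
    have h1 : ‖(a : BA R G)‖ ≤ ‖e‖ + ‖e - (a : BA R G)‖ := by
      have := norm_sub_norm_le (a : BA R G) e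
      rw [← norm_sub_rev e] at this
      linarith
    rw [hnb, ← hna]
    linarith
  have hdb : ‖dfc b‖ ≤ s / 4 := by
    have h1 : ‖dfc b‖ = ‖((dfc a : FinAlg R G) : BA R G)‖ := by
      rw [Completion.norm_coe, ← norm_mp H.subtype hinj, ← hb]
      unfold dfc
      rw [map_sub, map_mul]
    have h2 : ((dfc a : FinAlg R G) : BA R G) =
        (e - a) * (e - a) + (e - a) - (e * (e - a) + (e - a) * e) := by
      have : ((dfc a : FinAlg R G) : BA R G) = (a : BA R G) * a - a := by
        rw [← Completion.coe_mul, ← Completion.coe_sub]; rfl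
      rw [this]
      have h3 : (e - a) * (e - a) + (e - a) - (e * (e - a) + (e - a) * e) =
        (a : BA R G) * a - a - (e * e - e) := by noncomm_ring
      rw [h3, he]; abel
    rw [h1, h2]
    have h4 := norm_mul_le (e - (a : BA R G)) (e - a)
    have h5 := norm_mul_le e (e - (a : BA R G))
    have h6 := norm_mul_le (e - (a : BA R G)) e
    have h7 := norm_add_le ((e - (a : BA R G)) * (e - a)) (e - a)
    have h8 := norm_add_le (e * (e - (a : BA R G))) ((e - a) * e)
    have h9 := norm_sub_le ((e - (a : BA R G)) * (e - a) + (e - a))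
      (e * (e - a) + (e - a) * e)
    have h10 := norm_nonneg (e - (a : BA R G))
    nlinarith
  obtain ⟨f, hff, hbf, hlim, hMn, hdn, hWn⟩ :=
    newton (x := b) (M := M) (s := s) (by linarith) hnb1 hs0.le hs1 hs2 hs3 hdb
  -- vanishing for every class of `H` above the class of `g`
  have hvan : sig T (H.subtype ⁻¹' {z | IsConj g z}) f = 0 := by
    refine sig_zero_of_classes T _ ?_ f ?_
    · intro x y hxy hx
      exact IsConj.trans hx (H.subtype.map_isConj hxy)
    · intro z hz
      obtain ⟨k, hk⟩ := isConj_iff.mp hz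
      -- the subgroup generated by `H` and `k`
      set L : Subgroup G := Subgroup.closure (S ∪ {g, k}) with hL
      have hLfg : L.FG := by
        refine (Subgroup.fg_iff L).mpr ⟨S ∪ {g, k}, rfl, ?_⟩
        exact (Finset.finite_toSet _).union (by simp)
      have hgL : g ∈ L := Subgroup.subset_closure (by simp)
      have hkL : k ∈ L := Subgroup.subset_closure (by simp)
      have hHL : H ≤ L := Subgroup.closure_mono Set.subset_union_left
      obtain ⟨C⟩ := (hg L hgL hLfg).tc
      have C' := (C.conj ⟨k, hkL⟩).comap (Subgroup.inclusion hHL) (h := z)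
        (by ext; simpa using hk.symm)
      exact vanish_limit T C' hlim hMn hdn hWn
  -- comparison with `e`
  set f' : BA R G := mpc R H.subtype hinj f with hf'
  have hf'f' : f' * f' = f' := by rw [hf', ← map_mul, hff]
  have hclose : ‖e - f'‖ ≤ δ + (1 + 2 * M) * s / 2 := by
    have h1 : e - f' = (e - a) + mpc R H.subtype hinj ((b : BA R H) - f) := by
      rw [map_sub, mpc_coe, hb]; abel
    rw [h1]
    refine (norm_add_le _ _).trans ?_
    rw [norm_mpc]
    exact add_le_add ha.le hbf
  obtain ⟨u, hu⟩ := similar he hf'f' (by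
    have h1 : (1 + 2 * ‖e‖) * ‖e - f'‖ ≤ (1 + 2 * M) * (δ + (1 + 2 * M) * s / 2) := by
      apply mul_le_mul _ hclose (norm_nonneg _) (by linarith)
      linarith
    nlinarith)
  have hinv : ConjInv {z : G | IsConj g z} := fun x y h => (isConj_rot g x y).mp h
  have h1 : sig T {z | IsConj g z} f' = sig T {z | IsConj g z} e := by
    have h2 : f' = f' * u * (↑u⁻¹ : BA R G) := by rw [mul_assoc, Units.mul_inv, mul_one]
    rw [h2, hu, mul_assoc, sig_comm T hinv, mul_assoc, Units.inv_mul, mul_one]
  rw [← h1, hf', sig_mpc]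
  exact hvan

end Main

end

end Vale.Agent.P184
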