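import Vale.Agent.Lib.P184.Local

namespace Vale.Agent.P184

open UniformSpace Filter Topology

noncomputable section

universe u

attribute [local instance] Matrix.linftyOpNormedRing Matrix.linftyOpNormedSpace

variable {q : ℕ}

/-- the coefficient ring -/
abbrev Mq (q : ℕ) : Type := Matrix (Fin q) (Fin q) ℂ

lemma entry_le (m : Mq q) (i j : Fin q) : ‖m i j‖ ≤ ‖m‖ := by
  have h1 : ‖m i j‖₊ ≤ ∑ j, ‖m i j‖₊ :=
    Finset.single_le_sum (f := fun j => ‖m i j‖₊) (fun _ _ => zero_le) (Finset.mem_univ j)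
  have h2 : ∑ j, ‖m i j‖₊ ≤ ‖m‖₊ := by
    rw [Matrix.linfty_opNNNorm_def]
    exact Finset.le_sup (f := fun i => ∑ j, ‖m i j‖₊) (Finset.mem_univ i)
  exact_mod_cast h1.trans h2

lemma norm_le_sum (m : Mq q) : ‖m‖ ≤ ∑ i, ∑ j, ‖m i j‖ := by
  have h : ‖m‖₊ ≤ ∑ i, ∑ j, ‖m i j‖₊ := by
    rw [Matrix.linfty_opNNNorm_def]
    refine Finset.sup_le fun i _ => ?_
    exact Finset.single_le_sum (f := fun i => ∑ j, ‖m i j‖₊) (fun _ _ => zero_le)
      (Finset.mem_univ i)
  have h' : ((‖m‖₊ : NNReal) : ℝ) ≤ ((∑ i, ∑ j, ‖m i j‖₊ : NNReal) : ℝ) := by exact_mod_cast h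
  simpa using h'

/-- the matrix trace as a bounded trace -/
def trT (q : ℕ) : BTr (Mq q) where
  t := Matrix.traceAddMonoidHom (Fin q) ℂ
  K := q
  K_nonneg := Nat.cast_nonneg q
  bound r := by
    change ‖Matrix.trace r‖ ≤ _
    rw [Matrix.trace]
    refine (norm_sum_le _ _).trans ?_
    refine (Finset.sum_le_sum (fun i _ => entry_le r i i)).trans ?_
    simp
  comm r s := Matrix.trace_mul_comm r s

instance complete_Mq : CompleteSpace (Mq q) := FiniteDimensional.complete ℂ (Mq q)

/-- entry as an additive map -/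
def entryHom (i j : Fin q) : Mq q →+ ℂ where
  toFun m := m i j
  map_zero' := rfl
  map_add' _ _ := rfl

lemma entryHom_continuous (i j : Fin q) : Continuous (entryHom (q := q) i j) :=
  AddMonoidHomClass.continuous_of_bound (entryHom (q := q) i j) 1
    (fun r => by rw [one_mul]; exact entry_le r i j)

variable {G : Type u} [Group G]

/-- the matrix valued function attached to a matrix of functions -/
def mat (e : Fin q → Fin q → G → ℂ) (g : G) : Mq q := Matrix.of fun i j => e i j g

lemma summable_mat {e : Fin q → Fin q → G → ℂ} (he : ∀ i j, Summable fun g : G => ‖e i j g‖) :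
    Summable fun g => ‖mat e g‖ := by
  refine Summable.of_nonneg_of_le (fun g => norm_nonneg _) (fun g => norm_le_sum (mat e g)) ?_
  exact summable_sum fun i _ => summable_sum fun j _ => he i j

lemma summable_conv_entry {a b : G → ℂ} (ha : Summable fun g : G => ‖a g‖)
    (hb : Summable fun g : G => ‖b g‖) (g : G) : Summable fun h => a h * b (h⁻¹ * g) := by
  have := (summable_conv (R := ℂ) ha hb)
  exact (this.of_norm).prod_factor g

lemma mat_conv {e : Fin q → Fin q → G → ℂ} (he : IsL1Idempotent q e) :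
    (fun g => ∑' h, mat e h * mat e (h⁻¹ * g)) = mat e := by
  funext g
  have hs := summable_mat he.1
  have h5 : Summable fun h => mat e h * mat e (h⁻¹ * g) :=
    ((summable_conv hs hs).of_norm).prod_factor g
  ext i j
  have h1 := h5.map_tsum (entryHom i j) (entryHom_continuous i j)
  change (entryHom i j) (∑' h, mat e h * mat e (h⁻¹ * g)) = e i j g
  rw [h1, ← he.2 i j g]
  have h2 : ∀ h, (entryHom i j) (mat e h * mat e (h⁻¹ * g)) =
      ∑ k, e i k h * e k j (h⁻¹ * g) := by
    intro h
    change (mat e h * mat e (h⁻¹ * g)) i j = _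
    rw [Matrix.mul_apply]
    rfl
  simp only [h2]
  rw [Summable.tsum_finsetSum (fun k _ => summable_conv_entry (he.1 i k) (he.1 k j) g)]
  rfl

lemma hsCoeff_eq {e : Fin q → Fin q → G → ℂ} (he : IsL1Idempotent q e) (g : G) :
    hsCoeff q e (ConjClasses.mk g) = sig (trT q) {z | IsConj g z} (emb (mat e)) := by
  classical
  rw [sig_emb _ _ (summable_mat he.1), hsCoeff]
  have hset : (ConjClasses.mk g).carrier = {z | IsConj g z} := by
    ext z
    rw [ConjClasses.mem_carrier_iff_mk_eq, Set.mem_ofPred_eq, ConjClasses.mk_eq_mk_iff_isConj]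
    exact isConj_comm
  rw [hset, tsum_subtype {z | IsConj g z} (fun z => ∑ i, e i i z)]
  refine tsum_congr fun z => ?_
  rw [Set.indicator_apply]
  rfl

/-- **The local criterion.** -/
theorem vanishesAt_of_local (g : G)
    (hg : ∀ (H : Subgroup G) (hgH : g ∈ H), H.FG → HasTranslationCharacter (⟨g, hgH⟩ : H)) :
    VanishesAt g := by
  intro q e he
  rw [hsCoeff_eq he]
  refine vanish_local (trT q) g hg _ ?_
  rw [emb_mul (summable_mat he.1) (summable_mat he.1)]
  exact congrArg emb (mat_conv he)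

/-- **The global criterion.** -/
theorem vanishesAt_of_translationCharacter (g : G) (hg : HasTranslationCharacter g) :
    VanishesAt g := by
  refine vanishesAt_of_local g fun H hgH _ => ?_
  obtain ⟨C⟩ := hg.tc
  have C' := C.comap H.subtype (h := ⟨g, hgH⟩) rfl
  exact ⟨C'.ℓ, C'.ψ, C'.ℓ_mul, C'.ℓ_inv, C'.ψ_mul, C'.ψ_le, C'.ψ_ne⟩

end

end Vale.Agent.P184
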